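import Claimed.Agent.R256.Soft.Doc

/-!
# Row 256 (S0496), unit NM, file 0: THE SLOT `X` OF `SfExit` = (mem) ON THE OPERATOR-FREE CONFIGURATION      (chief helper118; prefix `nm_`)

Imports `Soft/Doc` ONLY, so that Q1 (helper19, `Soft/Exit`), Q2 (helper277, `Act/Main`) and the hub can all import it:      **`hubX hyb := nmX`**.
`nmX π D t = D.Mem π t ∧ D.MemP π t`      (03-lower-dimensional.tex, Lemma low:memory + prediction version; used in 04 l.430-560, Prop. names:memory).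
NO flattening is asked in `X`: NM flattens the FINAL law itself (`nm_restr` = `sf_cond`, `nm_seq`).
PRODUCER: `K.Rig π Ls nmX` (format of `Soft/Contract.lean`) from `ch_mem_cl`, `ch_mem_hyb` (R256/Chan, helper130) + matched chain (i)-(iii): `L ≤ s^-o(1) E_j / (κ_j w_j)`, `E_j / E_i`, `κ_j / κ_i`, normalising mass.
Both predicates are MONOTONE in the tolerance `t` and stable under conditioning of the final law on an event of mass `≥ s^t` (`t → 2t`).
-/

set_option autoImplicit false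

namespace Claimed.Agent.R256

open Claimed.Agent.R255

noncomputable section

namespace SfPar

/-- `Q` of Lemma low:memory (`0` for a pure linear cost) -/
def Qm (π : SfPar) : ℝ := if π.c2 = 0 then 0 else π.q

/-- `C_rate = b_1'` (`q - J`; pure linear: `c_1`) -/
def Cr (π : SfPar) : ℝ := π.q - π.J

/-- `L_raw = max {1, (1+Q)/2, 1 + C_rate}` -/
def Lraw (π : SfPar) : ℝ := max 1 (max ((1 + π.Qm) / 2) (1 + π.Cr))

/-- `max {1, (1+Q)/2}` -/
def LS (π : SfPar) : ℝ := max 1 ((1 + π.Qm) / 2)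

/-- the numerator `k_0 + 2Γ + η (L-1)`, `k_0 = 1 - d` -/
def mnum (π : SfPar) (L : ℝ) : ℝ := 1 - π.d + 2 * π.Γ + π.η * (L - 1)

/-- the memory slope -/
def mu (π : SfPar) (L : ℝ) : ℝ := π.mnum L / L

end SfPar

namespace SfDoc

variable (D : SfDoc) (π : SfPar)

/-- the derivative which the prediction version of (mem) guesses -/
def Pj (j : ℝ) (ρ : D.Row j) : ℝ := if π.c2 = 0 then (D.lab j ρ).Pc else (D.lab j ρ).Pd (D.ray j ρ)

/-- **(mem)** at `L = L_raw`, gates `0 < i < j`, `δ = s^(j-i)`: lists of `≤ δ^(-R)` angular cells of width `r_j δ^L`, which may depend on the label at `j`, are met with probability `≤ s^(-t) δ^((k_0 + 2Γ + η(L-1) - R)/2)` -/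
def Mem (t : ℝ) : Prop :=
  ∀ i ∈ D.G, ∀ j ∈ D.G, 0 < i → i < j → ∀ (R : ℝ) (c : SfTest → Finset ℝ),
    (∀ lam, ((c lam).card : ℝ) ≤ D.s ^ (-(R * (j - i)))) →
    (D.P j).pr (fun ρ => ∃ x ∈ c (D.lab j ρ), |(D.ray j ρ).X - x| ≤ D.r j * D.s ^ (π.Lraw * (j - i)))
      ≤ D.s ^ (-t) * D.s ^ ((π.mnum π.Lraw - R) / 2 * (j - i))

/-- **(mem), classical prediction version** at `L = max {1, (1+Q)/2}`: every ancestor row at `i` proposes `≤ δ^(-Z)` values of the ending derivative; the event is restricted to rows with a guess accurate to `δ^(1-L) f_j / r_j` -/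
def MemP (t : ℝ) : Prop :=
  π.hyb = false → ∀ i ∈ D.G, ∀ j ∈ D.G, 0 < i → i < j → ∀ (R Z : ℝ) (c : SfTest → Finset ℝ) (gs : D.Row i → Finset ℝ),
    (∀ lam, ((c lam).card : ℝ) ≤ D.s ^ (-(R * (j - i)))) → (∀ ρ, ((gs ρ).card : ℝ) ≤ D.s ^ (-(Z * (j - i)))) →
    (D.P j).pr (fun ρ' => (∃ x ∈ c (D.lab j ρ'), |(D.ray j ρ').X - x| ≤ D.r j * D.s ^ (π.LS * (j - i))) ∧
        ∃ ρ, D.Conn i j ρ ρ' ∧ ∃ γ ∈ gs ρ, |γ - D.Pj π j ρ'| ≤ D.s ^ ((1 - π.LS) * (j - i)) * (D.f j / D.r j))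
      ≤ D.s ^ (-t) * D.s ^ ((π.mnum π.LS - R - Z) / 2 * (j - i))

end SfDoc

/-- **the rigid properties which secs. 4-6 ask in the slot `X` of `SfExit`** -/
def nmX (π : SfPar) (D : SfDoc) (t : ℝ) : Prop := D.Mem π t ∧ D.MemP π t

theorem nm_x_eqns_cite : True := by
  have := @SfPar.Qm.eq_1; have := @SfPar.Cr.eq_1; have := @SfPar.Lraw.eq_1; have := @SfPar.LS.eq_1; have := @SfPar.mnum.eq_1; have := @SfPar.mu.eq_1
  have := @SfDoc.Pj.eq_1; have := @SfDoc.Mem.eq_1; have := @SfDoc.MemP.eq_1; have := @nmX.eq_1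
  trivial

end

end Claimed.Agent.R256
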