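import Claimed.Agent.R256.Nm.Geo.Main
import Claimed.Agent.R256.Nm.X
import Claimed.Agent.R255.Ent.Basic

/-!
# Row 256 (S0496), unit NM (Sec. 4A): VOCABULARY OF THE CONTRACT (no `sorry`)      (chief helper118; prefix `nm_`)

All definitions used by the statements of `Nm/Contract.lean`.   UNIT FILES (`Nm/Pro/*`, `Nm/Pha/*`, `Nm/Mem/*`, `Nm/Mrk/*`, `Nm/Can/*`, `Nm/Tra/*`, `Nm/Pred/*`) IMPORT THIS FILE, state the contract theorem VERBATIM under the name `<name>'`-free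
form chosen by their architect and prove it there; when a unit is closed, `Contract.lean` imports it and replaces its `sorry` by a one-line citation (only the chief edits `Contract.lean`).
`NmEntry`, `NmA` (quantifier patterns), `NmQ.Fam/Dom/EqPt`, `NmDs.Raw`, `nm_fam_ok`, `NmRt.Ok/Fits/Reg`, `SfDoc.PcList`, `NmGeo`, `NmRep`, `NmTime`, `NmAng`, `SfDoc.cnd`, `NmAt`, `SfDoc.atq/ats`, `NmSeq.ats/Flat/HasX/m/HM`, `nmNu`, `nmNuL`, `NmRt.Vq/Sd/Bg`.
-/

set_option autoImplicit false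

namespace Claimed.Agent.R256

open Claimed.Agent.R255
open Claimed.Agent.R255.FLaw (pair)
open Filter Topology MeasureTheory
open Classical

noncomputable section

/-! ## ENTRY -/

/-- **ENTRY**: the body of `SfExit _ _ _ nmX` for one affine family, ONE configuration for all cost improvements `τ` -/
def NmEntry (π : SfPar) (C0 : ℝ) (κ : ℝ → ℝ) : Prop :=
  ∀ (F : Finset ℝ), (∀ i ∈ F, 0 ≤ i ∧ i ≤ 1) → ∀ t s0 : ℝ, 0 < t → 0 < s0 →
    ∃ D : SfDoc, D.s < s0 ∧ F ⊆ D.G ∧ (∀ τ : ℝ, 0 < τ → D.Ok π C0 τ (κ τ) t) ∧ nmX π D t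

/-- TYPE A -/
def NmA (π : SfPar) (C0 τ κ0 : ℝ) (Φ : ℝ → SfDoc → Prop) : Prop :=
  ∀ acc : ℝ, 0 < acc → ∃ t0 : ℝ, 0 < t0 ∧ ∀ D : SfDoc, D.Fine π C0 τ κ0 t0 → nmX π D t0 → Φ acc D

/-! ## Admissible queries, domains, roots -/

namespace NmQ

/-- display and template fit the affine family (Def. names:curvature-displays, names:templates) -/
def Fam (q : NmQ) (π : SfPar) : Prop :=
  0 ≤ q.g ∧ (q.tp = NmTp.clip → 0 < π.Cr) ∧
  ((0 < π.c2 ∧ π.q = π.c2 ∧ q.ds = nmDsEq π ∧ q.tp ≠ NmTp.plin) ∨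
   (π.c2 = 0 ∧ 0 < π.c1 ∧ q.ds = nmDsLin ∧ q.tp = NmTp.plin) ∨
   (π.c2 = 1 ∧ π.q < 1 ∧ q.tp ≠ NmTp.plin ∧ ∃ De : ℝ, 0 < De ∧ De ≤ 1 ∧ (π.hyb = true → De = 1) ∧ q.ds = nmDsStr π De))

/-- the domain of use of (canon) -/
def Dom (q : NmQ) (π : SfPar) (a v : ℝ) : Prop :=
  0 ≤ a ∧ a ≤ q.ds.De ∧ 0 ≤ v ∧ (π.hyb = true → q.g = 0 ∧ q.w π a v < 0)

/-- the equality points of Prop. names:canonical-entropy (i) -/
def EqPt (q : NmQ) (π : SfPar) (a v : ℝ) : Prop :=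
  q.g = 0 ∧ q.l π a v = π.b1 a ∧
  ((q.ds.De = 1 ∧ a = 1 ∧ v = 0) ∨
   (π.hyb = false ∧ q.ds.glob = false ∧ 0 < π.Cr ∧ 0 < a ∧ a ≤ 1 ∧ v = π.u a) ∨
   (π.hyb = false ∧ q.ds.glob = true ∧ a = q.ds.De ∧ v = π.u a))

end NmQ

/-- displays of the RAW final derivative: endpoint `1`; a display of the family, or the equality display (no global subtraction: `P = P_1(F)`) -/
def NmDs.Raw (ds : NmDs) (π : SfPar) : Prop := ds.De = 1 ∧ ((∃ q : NmQ, q.Fam π ∧ q.ds = ds) ∨ ds = nmDsEq π)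

/-- the hypothesis of NM-GEO -/
theorem nm_fam_ok (π : SfPar) (hπ : π.Valid) (q : NmQ) (hq : q.Fam π) : q.Ok π := by
  obtain ⟨hg, hcl, h⟩ := hq
  have hb1 : q.tp ≠ NmTp.quad → 0 ≤ π.q - π.J := by
    intro hne
    cases htp : q.tp with
    | quad => exact absurd htp hne
    | clip => exact (hcl htp).le
    | plin =>
      rcases h with ⟨-, -, -, h4⟩ | ⟨h1, h2, -, -⟩ | ⟨-, -, h4, -⟩
      · exact absurd htp h4
      · rcases hπ.fam with ⟨g1, -⟩ | ⟨g1, -⟩ | ⟨-, -, g3⟩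
        · rw [h1] at g1; exact absurd g1 (lt_irrefl _)
        · rw [h1] at g1; norm_num at g1
        · rw [g3]; linarith
      · exact absurd htp h4
  rcases h with ⟨h1, h2, h3, h4⟩ | ⟨h1, h2, h3, h4⟩ | ⟨h1, h2, h4, De, -, -, -, h3⟩
  · refine ⟨?_, ?_, hb1, fun h => absurd h h4, hg⟩
    · rw [h3]; exact h1.le
    · rw [h3]; intro hc
      simp only [nmDsEq] at hc ⊢
      by_cases h5 : 1 < π.c2
      · exact h5.le
      · rw [if_neg h5] at hc; cases hc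
  · refine ⟨?_, ?_, hb1, fun _ => ?_, hg⟩
    · rw [h3]; simp [nmDsLin]
    · rw [h3]; intro hc; simp [nmDsLin] at hc
    · rw [h3]; rfl
  · refine ⟨?_, ?_, hb1, fun h => absurd h h4, hg⟩
    · rw [h3]; simp [nmDsStr]
    · rw [h3]; intro hc; simp [nmDsStr] at hc

/-- **admissible roots and sides** (Def. names:side); `Λ` = the constant of `≫` -/
structure NmRt.Ok (r : NmRt) (π : SfPar) (Λ : ℝ) : Prop where
  q : r.q.Fam π
  g0 : r.q.g = 0
  ha : 0 < r.a ∧ r.a < r.q.ds.De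
  hv : 0 ≤ r.v
  rate : 0 < r.c π
  hyb : π.hyb = true → r.σ.exact = false ∧ r.q.w π r.a r.v < 0
  /-- quadratic branch: `l = b + v` -/
  brq : r.σ.lin = false → r.q.tp ≠ NmTp.plin ∧ r.q.l π r.a r.v = r.q.ds.b r.a + r.v
  /-- linear branch: pure linear, or strictly clipped -/
  brl : r.σ.lin = true → r.q.tp = NmTp.plin ∨ (r.σ.exact = true ∧ r.q.tp = NmTp.clip ∧ π.b1 r.a < r.q.ds.b r.a + r.v)
  /-- (i), (iii): the anchor -/
  anc : r.σ.exact = false → 0 ≤ r.σ.A ∧ r.σ.A < r.a ∧ Λ * (1 + r.c π + |π.q| + π.J) * (r.a - r.σ.A) ≤ r.σ.V - r.v ∧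
    (π.hyb = true → r.q.w π r.σ.A r.σ.V < 0)
  /-- (i): strictly below the derivative accuracy, at the root and at the anchor -/
  cq : r.σ.exact = false → r.σ.lin = false →
    r.q.ds.b r.a + r.v < min (π.b1 r.a) (π.b1 r.q.ds.De) ∧ r.q.ds.b r.σ.A + r.σ.V < min (π.b1 r.σ.A) (π.b1 r.q.ds.De)
  /-- (ii); a clipped template: STRICTLY inside the quadratic branch (defect 2 of helper143: at `b a + v = b_1 a` the children are clipped, T5 fails; coarse sides: `cq`) -/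
  eq : r.σ.exact = true → r.σ.lin = false → r.q.l π r.a r.v < r.σ.xs ∧ (r.q.tp = NmTp.clip → r.q.ds.b r.a + r.v < π.b1 r.a)

/-- the constant of `≫` may be decreased: consumers unify the `Λ` of several exits by their maximum -/
theorem NmRt.Ok.mono {r : NmRt} {π : SfPar} {Λ Λ' : ℝ} (hπ : π.Valid) (h : r.Ok π Λ') (hΛ : Λ ≤ Λ') : r.Ok π Λ := by
  refine { h with anc := fun he => ?_ }
  obtain ⟨h1, h2, h3, h4⟩ := h.anc he
  refine ⟨h1, h2, le_trans ?_ h3, h4⟩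
  have h5 : 0 ≤ 1 + r.c π + |π.q| + π.J := by
    have := h.rate; have := abs_nonneg π.q; have := hπ.J0; linarith
  have h6 : 0 ≤ r.a - r.σ.A := by linarith
  exact mul_le_mul_of_nonneg_right (mul_le_mul_of_nonneg_right hΛ h5) h6

/-- (ii): off an event of probability `≤ e` the pair `(y_0, t_a)` lists the bin `[P]_{x_*}` with `≤ s^(-e)` values -/
def SfDoc.PcList (D : SfDoc) (π : SfPar) (r : NmRt) (e : ℝ) : Prop :=
  r.σ.exact = true → r.σ.lin = false → ∃ G : D.Row 1 → Prop, (D.P 1).pr (fun ω => ¬ G ω) ≤ e ∧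
    (D.P 1).NVal G (D.Pc π r.q.ds r.σ.xs) (pair D.y0 (D.tc r.a)) (D.s ^ (-e))

/-- the package fits below the endpoint; the stored marks are finer than everything which is read -/
def NmRt.Fits (r : NmRt) (π : SfPar) (pk : ItPk) : Prop :=
  0 < r.h ∧ (∀ p ∈ pk.G, r.a + p * r.h < r.q.ds.De) ∧ (∀ l ∈ pk.Lam, r.a + l * r.h < r.q.ds.De) ∧ r.a + pk.RQ * r.h < r.q.ds.De ∧
    2 * pk.RQ ≤ r.Rm ∧ ∀ l ∈ pk.Lam, (2 + r.c π) * l ≤ r.Rm

/-- the regime of a root -/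
def NmRt.Reg (r : NmRt) (π : SfPar) (B0 : ℝ) (a : ItPar) : Prop := a.c = r.c π ∧ a.d = π.d ∧ a.B0 = B0

/-! ## Vocabulary of the exits of type A -/

/-- what NM supplies pointwise about the one-record tangent datum: bounds of T0, T5, T6 -/
structure NmGeo (T : Tan) (a : ItPar) (pk : ItPk) (acc : ℝ) : Prop where
  small : 0 < T.δ ∧ T.δ < acc ∧ T.δ < 1
  bdF : ∀ ω, T.P.p ω ≠ 0 → (T.F ω).nrm ≤ a.B0
  bdM : ∀ ω, T.P.p ω ≠ 0 → |(T.mrk 0 ω).th| ≤ a.B0 ∧ |(T.mrk 0 ω).r| ≤ a.B0 ∧ |(T.mrk 0 ω).k| ≤ a.B0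
  lin0 : T.quad = false → ∀ ω, (T.F ω).P = 0
  tg : T.AdmG a pk acc

/-- the representatives of the values of the side are GOOD with the slack exponent `e` and the list size `K0`:
actual and representative root names list each other, and the actual normalised phase in the frame of the representative name is `s^e`-close to the common phase (Lemma names:common-phase) -/
structure NmRep (D : SfDoc) (π : SfPar) (r : NmRt) (K0 e : ℝ) : Prop where
  rep1 : (D.P 1).NVal (fun _ => True) (D.nm π r.q r.a r.v) (D.cs π r) K0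
  rep2 : (D.P 1).NVal (fun _ => True) (D.cs π r) (D.nm π r.q r.a r.v) K0
  close : ∀ ω, (D.P 1).p ω ≠ 0 →
    nmPhDist ((D.raw π r.q.ds ω).phase D.s π r.q r.a r.v (!r.σ.lin) (D.cs π r ω)) (D.fst π r (D.side π r.q r.σ r.a ω)) ≤ D.s ^ e

/-- the clause `time` of `Tan.AdmM` -/
def NmTime (T : Tan) (a : ItPar) (pk : ItPk) (acc : ℝ) : Prop :=
  ∀ p ∈ pk.G, ∀ q ∈ pk.G, p < q →
    T.P.pr (fun ω => T.P.surC (T.thn 0 q) (pair T.Zs (pair (T.thn 0 p) (T.rn 0 (T.rdep a p)))) ω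
      < (a.d * (q - p) - acc) * T.L) ≤ acc

/-! ## Vocabulary of the exits of type B -/

/-- the final law conditioned on an event (the configuration of `sf_cond`) -/
def SfDoc.cnd (D : SfDoc) (E : D.Row 1 → Prop) (h0 : 0 < (D.P 1).pr E) : SfDoc :=
  { D with P := fun i => if h : i = 1 then h ▸ (D.P 1).cond E h0 else D.P i
           mass := fun i => if i = 1 then D.mass 1 * (D.P 1).pr E else D.mass i }

/-- atomic queries -/
inductive NmAt
  | nm (q : NmQ) (a v : ℝ)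
  | Xc (x : ℝ)
  | tc (z : ℝ)
  | Pc (ds : NmDs) (x : ℝ)
  | bc (ds : NmDs) (x : ℝ)
  | y0

/-- admissible atomic queries with endpoints in `Ds` -/
def NmAt.Ok (π : SfPar) (Ds : Set ℝ) : NmAt → Prop
  | NmAt.nm q a v => q.Fam π ∧ q.ds.De ∈ Ds ∧ 0 ≤ a ∧ a ≤ q.ds.De ∧ 0 ≤ v
  | NmAt.Xc _ => True
  | NmAt.tc _ => True
  | NmAt.Pc ds _ => ds.De ∈ Ds ∧ ((∃ q : NmQ, q.Fam π ∧ q.ds = ds) ∨ ds = nmDsEq π)
  | NmAt.bc ds _ => ds.De ∈ Ds ∧ ((∃ q : NmQ, q.Fam π ∧ q.ds = ds) ∨ ds = nmDsEq π)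
  | NmAt.y0 => True

/-- values of atomic queries -/
abbrev NmVl (I : Type) : Type := NmNm ⊕ ℤ ⊕ (I × SfRay)

/-- an atomic query as an observation -/
def SfDoc.atq (D : SfDoc) (π : SfPar) : NmAt → D.Row 1 → NmVl D.Idx
  | NmAt.nm q a v => fun ω => Sum.inl (D.nm π q a v ω)
  | NmAt.Xc x => fun ω => Sum.inr (Sum.inl (D.Xc x ω))
  | NmAt.tc z => fun ω => Sum.inr (Sum.inl (D.tc z ω))
  | NmAt.Pc ds x => fun ω => Sum.inr (Sum.inl (D.Pc π ds x ω))
  | NmAt.bc ds x => fun ω => Sum.inr (Sum.inl (D.bc π ds x ω))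
  | NmAt.y0 => fun ω => Sum.inr (Sum.inr (D.y0 ω))

/-- a finite list of atomic queries -/
def SfDoc.ats (D : SfDoc) (π : SfPar) (L : List NmAt) : D.Row 1 → List (NmVl D.Idx) := fun ω => L.map fun x => D.atq π x ω

namespace NmSeq

variable {π : SfPar} {C0 : ℝ} {κ : ℝ → ℝ} (S : NmSeq π C0 κ)

/-- lists of queries along the sequence -/
def ats (L : List NmAt) : S.Obs (fun n => List (NmVl (S.D n).Idx)) := fun n => (S.D n).ats π L

/-- **flat** on the endpoints `Ds`: deterministic conditional scores for all finite lists of admissible queries (the particle only as a condition) -/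
def Flat (Ds : Set ℝ) : Prop :=
  ∀ L L' : List NmAt, (∀ x ∈ L, x ≠ NmAt.y0 ∧ x.Ok π Ds) → (∀ x ∈ L', x.Ok π Ds) → S.Hom (S.ats L) (S.ats L')

/-- the extra rigid properties along the sequence -/
def HasX : Prop := ∀ n, nmX π (S.D n) (S.t n)

/-- the angular trace `m(a,v)` -/
def m (q : NmQ) (a v : ℝ) : ℝ := limsup (fun h : ℝ => S.U q (v + h) a v / h) (𝓝[>] 0)

/-- a mixed profile: scalar query `V x`, static side `Sd` : `H(x,z) = lim H_s ([V_*]_x | S, t_z)` -/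
def HM (V : ℝ → NmAt) (Sd : List NmAt) (x z : ℝ) : ℝ := S.HC (S.ats [V x]) (S.ats (NmAt.tc z :: Sd))

end NmSeq

/-- the upper mixed trace on the graph `x = B z` -/
def nmNu (H : ℝ → ℝ → ℝ) (B : ℝ → ℝ) (a : ℝ) : ℝ := limsup (fun h : ℝ => (H (B a + h) a - H (B a) a) / h) (𝓝[>] 0)

/-- the lower mixed trace -/
def nmNuL (H : ℝ → ℝ → ℝ) (B : ℝ → ℝ) (a : ℝ) : ℝ := limsup (fun h : ℝ => (H (B a) a - H (B a - h) a) / h) (𝓝[>] 0)

/-- the clause `ang` of `Tan.AdmI` -/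
def NmAng (T : Tan) (a : ItPar) (pk : ItPk) (acc : ℝ) : Prop :=
  ∀ q ∈ pk.G, T.P.pr (fun ω => acc * T.L < |T.P.surC (T.Xn q) T.Cs ω - a.m * q * T.L|) ≤ acc

/-- the scalar of the mixed trace of a root: `β` (quadratic, constant cuts), the derivative (linear) -/
def NmRt.Vq (r : NmRt) : ℝ → NmAt := fun x => if r.σ.lin then NmAt.Pc r.q.ds x else NmAt.bc r.q.ds x

/-- the static side of a root -/
def NmRt.Sd (r : NmRt) : List NmAt :=
  if r.σ.exact then (if r.σ.lin then [NmAt.y0] else [NmAt.y0, NmAt.Pc r.q.ds r.σ.xs]) else [NmAt.nm r.q r.σ.A r.σ.V]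

/-- the graph of a root -/
def NmRt.Bg (r : NmRt) (π : SfPar) : ℝ → ℝ := fun z => if r.σ.lin then π.b1 z else r.q.ds.b z

theorem nm_base_eqns_cite : True := by
  have := @NmEntry.eq_1; have := @NmA.eq_1
  have := @NmQ.Fam.eq_1; have := @NmDs.Raw.eq_1; have := @NmQ.Dom.eq_1; have := @NmQ.EqPt.eq_1; have := @SfDoc.PcList.eq_1; have := @NmRt.Fits.eq_1; have := @NmRt.Reg.eq_1
  have := @NmTime.eq_1; have := @SfDoc.cnd.eq_1; have := @NmAt.Ok.eq_1; have := @SfDoc.atq.eq_1; have := @SfDoc.ats.eq_1; have := @NmSeq.ats.eq_1; have := @NmSeq.Flat.eq_1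
  have := @NmSeq.HasX.eq_1; have := @NmSeq.m.eq_1; have := @NmSeq.HM.eq_1; have := @nmNu.eq_1; have := @nmNuL.eq_1; have := @NmAng.eq_1
  have := @NmRt.Vq.eq_1; have := @NmRt.Sd.eq_1; have := @NmRt.Bg.eq_1
  trivial

end

end Claimed.Agent.R256
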