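import Claimed.Agent.R256.Nm.Base

/-!
# Row 256 (S0496), unit NM: POWER-SMALL FLATNESS      (asked by helper279, architect of E1 = Lemma act:stationary-boundary; producer PRO = `nm_seq`, `nm_reflat`, `nm_pclist`)

04 l.321-331: "For any fixed finite query list and any fixed positive tolerance, the profile assertions hold off POWER-SMALL sets.  Indeed the flattening fixes the preselection log probabilities; likelihood comparison bounds the change
under an exponent-zero restriction, and list counting controls exceptionally small probabilities.  Consequently such deterministic profiles persist under a later restriction of fraction `s^(o(h))`."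
`S.HomP c0 X Y` : for every tolerance `e > 0`, for `uf`-most `n`, the conditional score differs from the profile by more than `e` with probability `≤ s^(c0 e)` (LINEAR exponent: E1 uses `e = (small) h`, restriction of mass `s^((smaller) h)`).
WHY IT HOLDS (01 Lemma fw-restriction).   `Q = P(. | E)`, `P(E) ≥ s^α`:  off a set of `Q`-probability `≤ 2 s^τ`,  `|i_Q(X|Y) - i_P(X|Y)| ≤ α + τ`.   The flattening puts `i_P` in a bin of width `ε` around `c`:  `Q(|i_Q - c| > α + ε + τ) ≤ 2 s^τ`, `α, ε → 0`.
Later stages of the diagonal: compare with the stage which flattened the query (total later mass `s^(o(1))`); real parameters: lists `s^(-C |Δ|)` change a score by `≤ C |Δ| + τ` off `s^τ`.   `c0 = 1/8` is safe.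
-/

set_option autoImplicit false

namespace Claimed.Agent.R256

open Claimed.Agent.R255
open Claimed.Agent.R255.FLaw (pair)
open Filter Topology
open Classical

noncomputable section

namespace NmSeq

variable {π : SfPar} {C0 : ℝ} {κ : ℝ → ℝ} (S : NmSeq π C0 κ)

/-- `X` given `Y` is homogeneous off power-small sets -/
def HomP (c0 : ℝ) {α β : ℕ → Type} (X : S.Obs α) (Y : S.Obs β) : Prop :=
  ∀ e : ℝ, 0 < e → ∀ᶠ n in uf, ((S.D n).P 1).pr
    (fun ω => e < |((S.D n).P 1).surC (X n) (Y n) ω / (S.D n).lgs - S.HC X Y|) ≤ (S.D n).s ^ (c0 * e)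

/-- **flat off power-small sets** on the endpoints `Ds` (same queries as `Flat`) -/
def FlatP (c0 : ℝ) (Ds : Set ℝ) : Prop :=
  ∀ L L' : List NmAt, (∀ x ∈ L, x ≠ NmAt.y0 ∧ x.Ok π Ds) → (∀ x ∈ L', x.Ok π Ds) → S.HomP c0 (S.ats L) (S.ats L')

end NmSeq

theorem nm_flatp_eqns_cite : True := by
  have := @NmSeq.HomP.eq_1; have := @NmSeq.FlatP.eq_1
  trivial

end

end Claimed.Agent.R256
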