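import Claimed.Agent.R256.Nm.Base
import Claimed.Agent.R256.Nm.Pha.Exit
import Claimed.Agent.R256.Nm.Mem.Main
import Claimed.Agent.R256.Nm.Can.Eq
import Claimed.Agent.R256.Nm.Pred.Ctr
import Claimed.Agent.R256.Nm.Mem.Main
import Claimed.Agent.R256.Nm.Pro.Cell
import Claimed.Agent.R256.Nm.Pro.Flat
import Claimed.Agent.R256.Nm.Tra.Ang
import Claimed.Agent.R256.Nm.Tra.Ng
import Claimed.Agent.R256.Nm.Tra.Mix
import Claimed.Agent.R256.Nm.Tra.Meas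
import Claimed.Agent.R256.Nm.Pha.Rep
import Claimed.Agent.R256.Nm.Mrk.Time
import Claimed.Agent.R256.Nm.Mrk.Ang
import Claimed.Agent.R256.Nm.Mrk.Marks
import Claimed.Agent.R256.Nm.Pro.Restr
import Claimed.Agent.R256.Nm.Pro.Prof
import Claimed.Agent.R256.Nm.Pro.Ex
import Claimed.Agent.R256.Nm.Pro.Mb
import Claimed.Agent.R256.Nm.Pro.Mean

/-!
# Row 256 (S0496), unit NM (Sec. 4A = 04-canonical-names.tex l.1-729): CONTRACT  v5      (chief helper118, deputy helper51; prefix `nm_`)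

Reports 848 (helper103: P0-P5, X1-X8, Y1-Y6), 836 (helper51: E1-E9).   Definitions: `Nm/X.lean` (slot `X`), `Nm/Defs.lean`, `Nm/Base.lean` (vocabulary of this contract, no sorry: UNIT FILES IMPORT `Nm/Base`, NOT this file), `Nm/Geo/*` (X1), `Nm/Fit/*`, `Nm/Pred/*` (X4, X5; helper51).   Adapter to Lay (grid datum `LayGr`): `Nm/Grid.lean`.   Nothing here touches an operator.
EVERY sorried theorem below carries `OWNER`, `EST` (lines).

## ENTRY (what NM consumes)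
* `NmEntry π C0 κ` = the body of `SfExit hyb η Γ nmX` (`Soft/Doc.lean`, helper19) for ONE family, in the form asked by helper277 (msg 29006): ONE configuration `D` good for ALL cost improvements `τ` (rigidity `κ τ`).
  `nmX π D t = D.Mem π t ∧ D.MemP π t` (`Nm/X.lean`) = (mem) of Lemma low:memory and its classical prediction version.      SUPPLIER: R256/Chan (helper130) through `K.Rig π Ls nmX` (helper19).
* of `SfDoc.Ok`: P0 `bdd`, `own`, `grid`, `base`, `normC/H`, `trans`, `split`, P1 `reg` + `sp`, P2 `cnt`, P3 `cmpA`, `cmpB`, `eqK`, `stK`, `linP`, `hr`, `hf`, P5 `tp` + `sp`, `clPath`, `clUniq`, `clConn`.   `mincost` is NOT used in 4A.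
* `sf_cond` (`Soft/Contract.lean`, helper19) for `nm_restr`.

## QUANTIFIERS
TYPE A (finite scale), `NmA π C0 τ κ0 Φ` : `∀ acc > 0, ∃ t0 > 0, ∀ D, D.Fine π C0 τ κ0 t0 → nmX π D t0 → Φ acc D`.   ALL real parameters `(a, v, j, z, h, ...)` and finite packages are FIXED BEFORE `acc`: no uniformity in the parameters is claimed or needed.
   Gates are approximated: `D.Fine` has a gate within `t0` of every depth.
TYPE B (profiles of ONE fixed sequence `S : NmSeq π C0 κ`): ultralimits, defined at all real parameters; `S.Flat Ds` = deterministic scores for all finite lists of admissible atomic queries with endpoints in `Ds`.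

## EXIT
 X1 `nm_refine_up`, `nm_refine_dn`, `nm_refine_cmp`, `nm_nval_*`, `nm_ent*`  (`Nm/Geo/Main.lean`)     Lemma names:refinement;   `nm_fam_ok`
 X2 `nm_canon`   X3 `nm_equal`                   (canon), Prop. names:canonical-entropy (i)
 X4 `nm_strict`  X5 `nm_pred_left`, `nm_pred_right`, `nm_pred_end`      Prop. names:canonical-entropy (ii), (iii), (iv)
 X6 `nm_mem_label`, `nm_mem_final`, `nm_mem_pred`      Prop. names:memory, prefix form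
 X7 `nm_rep`, `nm_tan_geo`                       Lemma names:common-phase (canonical representatives `D.rpr`, `D.cst`, `D.fst`) + T0 (bounds), T5, T6 of `Tan.Adm` (consumers Int, helper196; Lay, helper189)
 X8 `nm_tan_time`                                Prop. names:mark-dimension, causal counting = clause `time` of `Tan.AdmM`
 Y0 `nm_restr`, `nm_seq`, `nm_reflat`            final flattening; existence of a flat sequence; a new virtual endpoint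
 Y1 `nm_H_lip`, `nm_E_nonneg`, `nm_E_zero`, `nm_U_basic`, `nm_U_incr`, `nm_m_basic`, `nm_HM_basic`, `nm_HP_HM`, `nm_Rj_basic`, `nm_tan_mean`
 Y2 `nm_tr_ang`  Y3 `nm_tr_ng`  Y4 `nm_tr_mixed`, `nm_tr_meas` Lemmas names:angular-trace, names:mixed-trace (abstract, Mathlib only)
 Y5 `nm_m_left`, `nm_mr`, `nm_m_slab`, `nm_pst`, `nm_mr_strong`, `nm_mr_weak`      Prop. names:memory at the level of profiles (consumer Act, helper277: `AcBase`, `AcSlab`, `left_mem`, `pst_*`)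
 Y6 `nm_tan_ang`, `nm_tan_marks`                 score level: clause `ang` of `Tan.AdmI`, all clauses of `Tan.AdmM` at typical roots

## UNITS (lines; depends on)                                        sub-block architect
 GEO  X1 1500 (-) CUT, leaves L-256-NM-GEO-A..G ; X4 300, X5 2500 (X1, Doc)      helper51
 CAN  X2 600, X3 900 (X1, Doc)                                      helper118
 MEM  X6 900 (X5, Mem) ; Y5 1500 (X5, X6, Y1, Y2, Y4)               open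
 PHA  X7 3000 (X1)                                                  open
 MRK  X8 1500 (X5-type row lists, tp, sp) ; Y6 1500 (Y0, Y2, Y4)    open
 TRA  Y2 500, Y3 400, Y4 500 (Mathlib only)                         open (can start NOW)
 PRO  Y0 1300, Y1 900 (X1-X3, R255/Ent, R255/Base/Ulim)             open
 GRD  `Nm/Grid.lean`: X10, X11 (child read, width read) 3500, side predictability 900, lift to replicas 500, most roots 1200      open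
-/

set_option autoImplicit false

namespace Claimed.Agent.R256

open Claimed.Agent.R255
open Claimed.Agent.R255.FLaw (pair)
open Filter Topology MeasureTheory
open Classical

noncomputable section

/-! ## EXIT, TYPE A -/

/-- **X2** (canon): sparse lists of names are rare.   `reg` on the cell of a name (a cylinder test with `r = s^v`, `f = s^(w-g)`; hybrid: `w < 0` gives `f_i ≤ f`), time grid, then `sp` from the gate near `a`.      CUT + ASSEMBLED (`Nm/Can/Main.lean`); leaves L-256-NM-CAN-A..E -/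
theorem nm_canon (π : SfPar) (hπ : π.Valid) (C0 τ κ0 : ℝ) (q : NmQ) (hq : q.Fam π) (a v : ℝ) (hd : q.Dom π a v) :
    NmA π C0 τ κ0 fun acc D => ∀ LL : Finset NmNm, (LL.card : ℝ) ≤ D.ek * D.s ^ (-(q.Z π a v) + acc) →
      (D.P 1).pr (fun ω => D.nm π q a v ω ∈ LL) ≤ D.s ^ (acc / 2) :=
  nm_cn_canon π hπ C0 τ κ0 q hq a v hd

/-- **X3**: the count at the equality points (`cnt` + label comparison).      PROVED from the exits of `Nm/Pred/Exit.lean` (`Nm/Can/Eq.lean`, no sorry of its own) -/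
theorem nm_equal (π : SfPar) (hπ : π.Valid) (C0 τ κ0 : ℝ) (q : NmQ) (hq : q.Fam π) (a v : ℝ) (he : q.EqPt π a v) :
    NmA π C0 τ κ0 fun acc D => ∃ S : Finset NmNm, (S.card : ℝ) ≤ D.ek * D.s ^ (-(q.Z π a v) - acc) ∧
      ∀ ω, (D.P 1).p ω ≠ 0 → D.nm π q a v ω ∈ S :=
  nm_cn_equal π hπ C0 τ κ0 q hq a v he

/-- **X4** (ii): in a strict family every label connected from `i < De` predicts `k̄`; residual bounds.      OWNER helper51, EST 300 -/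
theorem nm_strict (π : SfPar) (hπ : π.Valid) (C0 τ κ0 : ℝ) (q : NmQ) (hq : q.Fam π) (hg : q.ds.glob = true) (i : ℝ) (hi : 0 < i ∧ i < q.ds.De) :
    NmA π C0 τ κ0 fun acc D => D.LabPr (D.gt i) (fun _ => True) (fun ω => (D.raw π q.ds ω).kb) (fun _ => ()) (D.s ^ (-acc)) ∧
      ∀ (ρ : D.Row (D.gt i)) (ω : D.Row 1), D.Conn (D.gt i) 1 ρ ω → (D.P 1).p ω ≠ 0 →
        |(D.lab (D.gt i) ρ).K - D.kbar π q.ds ω| ≤ D.s ^ (π.b2 q.ds.De - q.ds.De - acc) ∧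
        |(D.raw π q.ds ω).be - ((D.lab (D.gt i) ρ).be - D.kbar π q.ds ω * (D.lab (D.gt i) ρ).T)| ≤ D.s ^ (q.ds.b i - acc) :=
  nm_c_strict π hπ C0 τ κ0 q hq hg i hi

/-- **X5** (iii): the left label comparison.      OWNER helper51, EST 900 -/
theorem nm_pred_left (π : SfPar) (hπ : π.Valid) (C0 τ κ0 : ℝ) (q : NmQ) (hq : q.Fam π) (hg : q.ds.glob = false) (hg0 : q.g = 0) (hJ : 0 < π.J)
    (a j : ℝ) (ha : 0 ≤ a ∧ a < j ∧ j < 1) (hl : q.l π a (π.u j) ≤ min (π.b1 j) 0) (hh : π.hyb = true → q.w π a (π.u j) < 0) :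
    NmA π C0 τ κ0 fun acc D => D.LabPr (D.gt j) (fun _ => True) (D.nm π q a (π.u j)) (fun _ => ()) (D.s ^ (-acc)) :=
  nm_c_pred_left π hπ C0 τ κ0 q hq hg hg0 hJ a j ha hl hh

/-- **X5** (iv): the small right excess, classical, `b_1' > 0`.   `lam0` depends only on the family.      OWNER helper51, EST 1100 -/
theorem nm_pred_right (π : SfPar) (hπ : π.Valid) (hc : π.hyb = false) (hb : 0 < π.Cr) (C0 τ κ0 : ℝ) (q : NmQ) (hq : q.Fam π) (hg0 : q.g = 0) :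
    ∃ lam0 : ℝ, 0 < lam0 ∧ ∀ a j v : ℝ, 0 < a → a < j → j ≤ q.ds.De → (q.ds.glob = true → j = q.ds.De) → π.u j ≤ v → v - π.u j ≤ lam0 * (j - a) →
      q.l π a v ≤ π.b1 j →
      NmA π C0 τ κ0 fun acc D => D.LabPr (D.gt j) (fun _ => True) (D.nm π q a v) (D.Xc v) (D.s ^ (-acc)) :=
  nm_c_pred_right π hπ hc hb C0 τ κ0 q hq hg0

/-- **X5** (iv), last sentences: strict family, `λ_De` alone at `v = u(De)`; also hybrid `De = 1`, `w < 0`.      OWNER helper51, EST 500 -/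
theorem nm_pred_end (π : SfPar) (hπ : π.Valid) (C0 τ κ0 : ℝ) (q : NmQ) (hq : q.Fam π) (hg : q.ds.glob = true) (hg0 : q.g = 0)
    (a : ℝ) (ha : 0 < a ∧ a < q.ds.De) (hl : q.l π a (π.u q.ds.De) ≤ π.b1 q.ds.De) (hh : π.hyb = true → q.w π a (π.u q.ds.De) < 0) :
    NmA π C0 τ κ0 fun acc D => D.LabPr (D.gt q.ds.De) (fun _ => True) (D.nm π q a (π.u q.ds.De)) (fun _ => ()) (D.s ^ (-acc)) :=
  nm_c_pred_end π hπ C0 τ κ0 q hq hg hg0 a ha hl hh

/-- **X6** memory, prefix form, `j < 1`: lists of angular cells of depth `u(j) + z` proposed by the labels at `j`.   The event asks the cell in the list of EVERY connected label (this is what `sp` transports, and what `LabPr` supplies).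
`Mem` on the gates near `(j - z / L_raw, j)`, then `sp` to the final gate.      OWNER helper198 (MEM), EST 400 -/
theorem nm_mem_label (π : SfPar) (hπ : π.Valid) (C0 τ κ0 : ℝ) (j z : ℝ) (hj : 0 < j ∧ j < 1) (hz : 0 < z ∧ z < π.Lraw * j) :
    NmA π C0 τ κ0 fun acc D => ∀ c : SfTest → Finset ℤ, (∀ lam, ((c lam).card : ℝ) ≤ D.s ^ (-((π.mu π.Lraw - acc) * z))) →
      (D.P 1).pr (fun ω => ∀ ρ, D.Conn (D.gt j) 1 ρ ω → D.Xc (π.u j + z) ω ∈ c (D.lab (D.gt j) ρ)) ≤ D.s ^ (acc * z / 4) :=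
  nm_me_mem_label π hπ C0 τ κ0 j z hj hz

/-- **X6** memory, prefix form, `j = 1`: the sampled final label.      OWNER helper198 (MEM), EST 200 -/
theorem nm_mem_final (π : SfPar) (hπ : π.Valid) (C0 τ κ0 : ℝ) (z : ℝ) (hz : 0 < z ∧ z < π.Lraw) :
    NmA π C0 τ κ0 fun acc D => ∀ c : SfTest → Finset ℤ, (∀ lam, ((c lam).card : ℝ) ≤ D.s ^ (-((π.mu π.Lraw - acc) * z))) →
      (D.P 1).pr (fun ω => D.Xc z ω ∈ c (D.lab 1 ω)) ≤ D.s ^ (acc * z / 4) :=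
  nm_me_mem_final π hπ C0 τ κ0 z hz

/-- **X6** memory, prediction variant (classical, `b_1' > 0`, endpoint `1`): if on `G` the pair `(y_0, t_{j-z/L})` lists `[P]_{b_1(j)}` with `≤ s^(-Zc z / L)` values.      OWNER helper198 (MEM), EST 500 -/
theorem nm_mem_pred (π : SfPar) (hπ : π.Valid) (hc : π.hyb = false) (hb : 0 < π.Cr) (C0 τ κ0 : ℝ) (ds : NmDs) (hds : ds.Raw π)
    (j z Zc : ℝ) (hj : 0 < j ∧ j < 1) (hz : 0 < z ∧ z < π.LS * j) (hZ : 0 ≤ Zc) :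
    NmA π C0 τ κ0 fun acc D => ∀ G : D.Row 1 → Prop,
      (D.P 1).NVal G (D.Pc π ds (π.b1 j)) (pair D.y0 (D.tc (j - z / π.LS))) (D.s ^ (-(Zc * (z / π.LS)))) →
      ∀ c : SfTest → Finset ℤ, (∀ lam, ((c lam).card : ℝ) ≤ D.s ^ (-(((π.mnum π.LS - Zc) / π.LS - acc) * z))) →
      (D.P 1).pr (fun ω => G ω ∧ D.Xc (π.u j + z) ω ∈ c (D.labAt j ω)) ≤ D.s ^ (acc * z / 4) :=
  nm_me_mem_pred π hπ hc hb C0 τ κ0 ds hds j z Zc hj hz hZ

/-- **X7a** (Lemma names:common-phase).   `Λ`, `K0` depend only on the family; the slack `e` on the root (patch slack).      OWNER helper143 (PHA), EST 1400 -/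
theorem nm_rep (π : SfPar) (hπ : π.Valid) (C0 τ κ0 : ℝ) : ∃ Λ K0 : ℝ, ∀ r : NmRt, r.Ok π Λ → ∃ e : ℝ, 0 < e ∧
    NmA π C0 τ κ0 fun _ D => NmRep D π r K0 e :=
  nm_pha_rep π hπ C0 τ κ0

/-- **X7b** (T0 bounds, T5, T6).   `Λ`, `B1` depend only on the family; `h0` on the root (patch slack) and the package.   The bound of the stored marks is ANY `r.B ≥ B1` (so that the exits unify: take the max of the `B1`, and of the `Λ` by `NmRt.Ok.mono`).      `r.Str π` (DEFECT 2 of helper143): quadratic branch of a CLIPPED template: strictly below the clip (void for `quad`).   Uniform on a patch: `nm_pha_geo_patch_str`, `nm_pha_geo_rect` (= `lay_port_geo`).      PROVED (helper143, `Nm/Pha/Exit.lean`) -/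
theorem nm_tan_geo (π : SfPar) (hπ : π.Valid) (C0 τ κ0 : ℝ) : ∃ Λ B1 : ℝ, 1 ≤ B1 ∧ ∀ r : NmRt, r.Ok π Λ → r.Str π → B1 ≤ r.B → ∀ pk : ItPk, pk.Ok →
    ∃ h0 : ℝ, 0 < h0 ∧ ∀ h : ℝ, h ≤ h0 → NmRt.Fits { r with h := h } π pk →
    NmA π C0 τ κ0 fun acc D => ∃ dsp : ℝ → NmNm → NmNm → ItDsp,
      ∀ a : ItPar, r.Reg π (r.B + 1) a → NmGeo (nmTan D π { r with h := h } dsp) a pk acc :=
  ⟨2, 3, by norm_num, fun r hr hstr hB pk hpk => nm_pha_tan_geo_str π hπ C0 τ κ0 r hr hstr hB pk hpk⟩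

/-- **X8** (Prop. names:mark-dimension, causal counting).   Exact quadratic sides: under `PcList` with a small `e0`.      OWNER helper219 (MRK), EST 1500 -/
theorem nm_tan_time (π : SfPar) (hπ : π.Valid) (C0 τ κ0 : ℝ) : ∃ Λ B1 : ℝ, ∀ r : NmRt, r.Ok π Λ → B1 ≤ r.B → ∀ pk : ItPk, pk.Ok →
    ∃ h0 : ℝ, 0 < h0 ∧ ∀ h : ℝ, h ≤ h0 → NmRt.Fits { r with h := h } π pk →
    ∀ acc : ℝ, 0 < acc → ∃ e0 : ℝ, 0 < e0 ∧ ∃ t0 : ℝ, 0 < t0 ∧ ∀ D : SfDoc, D.Fine π C0 τ κ0 t0 → nmX π D t0 → D.PcList π r e0 →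
      ∀ (dsp : ℝ → NmNm → NmNm → ItDsp) (a : ItPar), r.Reg π (r.B + 1) a → NmTime (nmTan D π { r with h := h } dsp) a pk acc :=
  nm_mk_tan_time_c π hπ C0 τ κ0

/-! ## EXIT, TYPE B -/

/-- **Y0** final flattening costs nothing: `t → 2t`, `κ0 → κ0 / 2`.   `Ok` = `sf_cond` (helper19); `Mem`, `MemP` at `j = 1` lose the factor `1 / P(E) ≤ s^(-t)`.      OWNER helper156 (PRO), EST 250 -/
theorem nm_restr (π : SfPar) (C0 τ κ0 t : ℝ) (D : SfDoc) (h : D.Fine π C0 τ κ0 t) (hX : nmX π D t) (ht : t ≤ 1 / 2) (E : D.Row 1 → Prop)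
    (h0 : 0 < (D.P 1).pr E) (hE : D.s ^ t ≤ (D.P 1).pr E) : (D.cnd E h0).Fine π C0 τ (κ0 / 2) (2 * t) ∧ nmX π (D.cnd E h0) (2 * t) :=
  nm_pro_restr π C0 τ κ0 t D h hX ht E h0 hE

/-- **Y0** existence of flat sequences, for a countable set of endpoints.   Countably many (rational) queries are flattened by `nm_restr` and a diagonal; real parameters by X1 (lists `s^(-C |Δ|)`).   ALSO flat off power-small sets (`Nm/FlatP.lean`, asked by helper279).      PROVED (helper156, `Nm/Pro/Flat.lean`) -/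
theorem nm_seq (π : SfPar) (hπ : π.Valid) (C0 : ℝ) (κ : ℝ → ℝ) (hκ : ∀ τ, 0 < τ → 0 < κ τ) (h : NmEntry π C0 κ) (Ds : Set ℝ) (hDs : Ds.Countable) :
    ∃ S : NmSeq π C0 (fun τ => κ τ / 2), S.HasX ∧ S.Flat Ds ∧ S.FlatP (1 / 8) Ds :=
  nm_pro_seq π hπ C0 κ h Ds hDs

/-- **Y0** a virtual endpoint chosen AFTER preliminary profiles: a new sequence, flat also at `De`, with the SAME conditional entropies of the old queries.   `Ds` COUNTABLE (uncountably many displays cannot be flattened again).      PROVED (helper156, `Nm/Pro/Flat.lean`) -/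
theorem nm_reflat {π : SfPar} {C0 : ℝ} {κ : ℝ → ℝ} (hπ : π.Valid) (S : NmSeq π C0 κ) (hX : S.HasX) (Ds : Set ℝ) (hDs : Ds.Countable) (hF : S.Flat Ds) (De : ℝ) :
    ∃ S' : NmSeq π C0 (fun τ => κ τ / 2), S'.HasX ∧ S'.Flat (insert De Ds) ∧ S'.FlatP (1 / 8) (insert De Ds) ∧
      ∀ L L' : List NmAt, (∀ x ∈ L, x ≠ NmAt.y0 ∧ x.Ok π Ds) → (∀ x ∈ L', x.Ok π Ds) → S'.HC (S'.ats L) (S'.ats L') = S.HC (S.ats L) (S.ats L') :=
  nm_pro_reflat hπ S hX Ds hDs hF De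

section profiles

variable {π : SfPar} {C0 : ℝ} {κ : ℝ → ℝ} (S : NmSeq π C0 κ)

/-- **Y1** Lipschitz dependence (`nm_ent_lip`).      OWNER helper156 (PRO), EST 150 -/
theorem nm_H_lip (hπ : π.Valid) (q : NmQ) (hq : q.Fam π) : ∃ C : ℝ, ∀ a a' v v' : ℝ,
    |S.H q a v - S.H q a' v'| ≤ C * (|a - a'| + |v - v'|) :=
  nm_pro_H_lip S hπ q hq

/-- **Y1** (canon); hybrid: also on the closure `w ≤ 0`.      OWNER helper156 (PRO), EST 250 -/
theorem nm_E_nonneg (hπ : π.Valid) (hX : S.HasX) (q : NmQ) (hq : q.Fam π) (a v : ℝ) (ha : 0 ≤ a ∧ a ≤ q.ds.De) (hv : 0 ≤ v)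
    (hh : π.hyb = true → q.g = 0 ∧ q.w π a v ≤ 0) : 0 ≤ S.E q a v :=
  nm_pro_E_nonneg S hπ hX q hq (fun a v hd => nm_canon π hπ C0 1 (κ 1) q hq a v hd) a v ha hv hh

/-- **Y1** equality points.      OWNER helper156 (PRO), EST 150 -/
theorem nm_E_zero (hπ : π.Valid) (hX : S.HasX) (q : NmQ) (hq : q.Fam π) (a v : ℝ) (he : q.EqPt π a v) : S.E q a v = 0 :=
  nm_pro_E_zero S hπ hX q hq (fun a v hd => nm_canon π hπ C0 1 (κ 1) q hq a v hd) a v he (nm_equal π hπ C0 1 (κ 1) q hq a v he)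

/-- **Y1** the angular score.      OWNER helper156 (PRO), EST 200 -/
theorem nm_U_basic (hπ : π.Valid) (q : NmQ) (hq : q.Fam π) (a v : ℝ) :
    S.U q v a v = 0 ∧ ∀ x x' : ℝ, v ≤ x → x ≤ x' → 0 ≤ S.U q x' a v - S.U q x a v ∧ S.U q x' a v - S.U q x a v ≤ x' - x := by
  exact ⟨(nm_pc_U S q a v).1, fun x x' _ h => (nm_pc_U S q a v).2 x x' h⟩

/-- **Y1** the increments decrease when either conditioning depth increases; Lipschitz in `(a, v)`.      OWNER helper156 (PRO), EST 250 -/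
theorem nm_U_incr (hπ : π.Valid) (q : NmQ) (hq : q.Fam π) :
    (∀ a a' v v' x x' : ℝ, a ≤ a' → v ≤ v' → v' ≤ x → x ≤ x' →
      S.U q x' a' v' - S.U q x a' v' ≤ S.U q x' a v - S.U q x a v) ∧
    ∃ C : ℝ, ∀ a a' v v' x : ℝ, |S.U q x a v - S.U q x a' v'| ≤ C * (|a - a'| + |v - v'|) :=
  nm_pro_U_incr S hπ q hq

/-- **Y1** the angular trace is measurable and lies in `[0,1]`; it decreases in `a`.      OWNER helper156 (PRO), EST 200 -/
theorem nm_m_basic (hπ : π.Valid) (q : NmQ) (hq : q.Fam π) :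
    Measurable (fun z : ℝ × ℝ => S.m q z.1 z.2) ∧ (∀ a, Measurable (S.m q a)) ∧ (∀ a v, 0 ≤ S.m q a v ∧ S.m q a v ≤ 1) ∧
      ∀ a a' v, a ≤ a' → S.m q a' v ≤ S.m q a v :=
  nm_pro_m_basic S hπ q hq

/-- **Y1** mixed profiles: monotone and `1`-Lipschitz in the depth `x`, increments decreasing in the time depth `z`, `1`-Lipschitz in `z` (hypotheses of `nm_tr_mixed`, `nm_tr_meas`).      OWNER helper156 (PRO), EST 250 -/
theorem nm_HM_basic (hπ : π.Valid) (ds : NmDs) (hds : (∃ q : NmQ, q.Fam π ∧ q.ds = ds) ∨ ds = nmDsEq π) (V : ℝ → NmAt) (hV : V = NmAt.Pc ds ∨ V = NmAt.bc ds) (Sd : List NmAt) :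
    (∀ z x x' : ℝ, x ≤ x' → 0 ≤ S.HM V Sd x' z - S.HM V Sd x z ∧ S.HM V Sd x' z - S.HM V Sd x z ≤ x' - x) ∧
    (∀ z z' x x' : ℝ, z ≤ z' → x ≤ x' → S.HM V Sd x' z' - S.HM V Sd x z' ≤ S.HM V Sd x' z - S.HM V Sd x z) ∧
    ∀ x z z' : ℝ, |S.HM V Sd x z - S.HM V Sd x z'| ≤ |z - z'| := by
  exact nm_pc_HM S ds V hV Sd

/-- **Y1** `HP` is the mixed profile with the static side `y_0`.      OWNER helper156 (PRO), EST 60 -/
theorem nm_HP_HM (ds : NmDs) (x z : ℝ) : S.HP ds x z = S.HM (NmAt.Pc ds) [NmAt.y0] x z := by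
  exact nm_pc_HP_HM S ds x z

/-- **Y1** `R_j` is nondecreasing and `1`-Lipschitz.      OWNER helper156 (PRO), EST 100 -/
theorem nm_Rj_basic (hπ : π.Valid) (j : ℝ) : ∀ x x' : ℝ, x ≤ x' → 0 ≤ S.Rj j x' - S.Rj j x ∧ S.Rj j x' - S.Rj j x ≤ x' - x := by
  exact fun x x' h => nm_pc_Rj S j x x' h

end profiles

/-- **Y2** (ang), abstract.   `U x a v` on the box `a ∈ (a0,a1)`, `v0 < v ≤ x < v1`.      OWNER open (TRA), EST 500 -/
theorem nm_tr_ang (U : ℝ → ℝ → ℝ → ℝ) (a0 a1 v0 v1 C : ℝ)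
    (h0 : ∀ a ∈ Set.Ioo a0 a1, ∀ v ∈ Set.Ioo v0 v1, U v a v = 0)
    (h1 : ∀ a ∈ Set.Ioo a0 a1, ∀ v ∈ Set.Ioo v0 v1, ∀ x x', v ≤ x → x ≤ x' → x' < v1 → 0 ≤ U x' a v - U x a v ∧ U x' a v - U x a v ≤ x' - x)
    (h2 : ∀ a ∈ Set.Ioo a0 a1, ∀ a' ∈ Set.Ioo a0 a1, ∀ v ∈ Set.Ioo v0 v1, ∀ v' ∈ Set.Ioo v0 v1, ∀ x x', a ≤ a' → v ≤ v' → v' ≤ x → x ≤ x' → x' < v1 →
      U x' a' v' - U x a' v' ≤ U x' a v - U x a v)
    (h3 : ∀ a ∈ Set.Ioo a0 a1, ∀ a' ∈ Set.Ioo a0 a1, ∀ v ∈ Set.Ioo v0 v1, ∀ v' ∈ Set.Ioo v0 v1, ∀ x, |U x a v - U x a' v'| ≤ C * (|a - a'| + |v - v'|)) :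
    (∀ a ∈ Set.Ioo a0 a1, ∀ᵐ v : ℝ, v ∈ Set.Ioo v0 v1 → ∀ p : ℝ, 0 ≤ p →
      Tendsto (fun h : ℝ => U (v + p * h) a v / h) (𝓝[>] 0) (𝓝 (limsup (fun h : ℝ => U (v + h) a v / h) (𝓝[>] 0) * p))) ∧
    (∀ᵐ z : ℝ × ℝ, z.1 ∈ Set.Ioo a0 a1 → z.2 ∈ Set.Ioo v0 v1 → ∀ p : ℝ, 0 ≤ p →
      Tendsto (fun h : ℝ => U (z.2 + p * h) z.1 z.2 / h) (𝓝[>] 0) (𝓝 (limsup (fun h : ℝ => U (z.2 + h) z.1 z.2 / h) (𝓝[>] 0) * p))) ∧
    ∃ mm : ℝ × ℝ → ℝ, Measurable mm ∧ ∀ z : ℝ × ℝ, z.1 ∈ Set.Ioo a0 a1 → z.2 ∈ Set.Ioo v0 v1 →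
      mm z = limsup (fun h : ℝ => U (z.2 + h) z.1 z.2 / h) (𝓝[>] 0) := by
  exact nm_tra_ang U a0 a1 v0 v1 C h0 h1 h2 h3

/-- **Y3** (ng), abstract.      OWNER open (TRA), EST 400 -/
theorem nm_tr_ng (U : ℝ → ℝ → ℝ → ℝ) (a0 a1 v0 v1 C : ℝ)
    (h0 : ∀ a ∈ Set.Ioo a0 a1, ∀ v ∈ Set.Ioo v0 v1, U v a v = 0)
    (h1 : ∀ a ∈ Set.Ioo a0 a1, ∀ v ∈ Set.Ioo v0 v1, ∀ x x', v ≤ x → x ≤ x' → x' < v1 → 0 ≤ U x' a v - U x a v ∧ U x' a v - U x a v ≤ x' - x)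
    (h2 : ∀ a ∈ Set.Ioo a0 a1, ∀ a' ∈ Set.Ioo a0 a1, ∀ v ∈ Set.Ioo v0 v1, ∀ v' ∈ Set.Ioo v0 v1, ∀ x x', a ≤ a' → v ≤ v' → v' ≤ x → x ≤ x' → x' < v1 →
      U x' a' v' - U x a' v' ≤ U x' a v - U x a v)
    (h3 : ∀ a ∈ Set.Ioo a0 a1, ∀ a' ∈ Set.Ioo a0 a1, ∀ v ∈ Set.Ioo v0 v1, ∀ v' ∈ Set.Ioo v0 v1, ∀ x, |U x a v - U x a' v'| ≤ C * (|a - a'| + |v - v'|)) :
    (∀ v ∈ Set.Ioo v0 v1, ∀ᵐ a : ℝ, a ∈ Set.Ioo a0 a1 → ∀ G : ℝ, 0 ≤ G →
      Tendsto (fun h : ℝ => (U (v + G * h) a v - U (v + G * h) (a + G * h) v) / h) (𝓝[>] 0) (𝓝 0)) ∧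
    (∀ᵐ z : ℝ × ℝ, z.1 ∈ Set.Ioo a0 a1 → z.2 ∈ Set.Ioo v0 v1 → ∀ G : ℝ, 0 ≤ G →
      Tendsto (fun h : ℝ => (U (z.2 + G * h) z.1 z.2 - U (z.2 + G * h) (z.1 + G * h) z.2) / h) (𝓝[>] 0) (𝓝 0)) := by
  exact nm_tra_ng U a0 a1 v0 v1 C h0 h1 h2 h3

/-- **Y4** mixed trace, abstract.   `H x z` on `z ∈ (z0,z1)`, all `x`; graph `B z = B0 + c' z`.      PROVED (helper231, `Nm/Tra/Mix.lean`) -/
theorem nm_tr_mixed (H : ℝ → ℝ → ℝ) (z0 z1 B0 c' : ℝ) (hc : 0 < c')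
    (h1 : ∀ z ∈ Set.Ioo z0 z1, ∀ x x', x ≤ x' → 0 ≤ H x' z - H x z ∧ H x' z - H x z ≤ x' - x)
    (h2 : ∀ z ∈ Set.Ioo z0 z1, ∀ z' ∈ Set.Ioo z0 z1, ∀ x x', z ≤ z' → x ≤ x' → H x' z' - H x z' ≤ H x' z - H x z) :
    ∀ᵐ a : ℝ, a ∈ Set.Ioo z0 z1 →
      0 ≤ nmNuL H (fun z => B0 + c' * z) a ∧ nmNuL H (fun z => B0 + c' * z) a ≤ nmNu H (fun z => B0 + c' * z) a ∧ nmNu H (fun z => B0 + c' * z) a ≤ 1 ∧
      ∀ al1 al2 be : ℝ, al1 ≤ al2 →
        Tendsto (fun h : ℝ => (H (B0 + c' * a + al2 * h) (a + be * h) - H (B0 + c' * a + al1 * h) (a + be * h)) / h) (𝓝[>] 0)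
          (𝓝 (nmNuL H (fun z => B0 + c' * z) a * (min al2 (c' * be) - min al1 (c' * be))
            + nmNu H (fun z => B0 + c' * z) a * (max al2 (c' * be) - max al1 (c' * be)))) :=
  nm_mix_main H z0 z1 B0 c' hc h1 h2

/-- **Y4** the upper mixed trace is measurable and lies in `[0,1]` (continuity in `(a,h)`: rational `h` suffice).      PROVED (helper231, `Nm/Tra/Meas.lean`) -/
theorem nm_tr_meas (H : ℝ → ℝ → ℝ) (B : ℝ → ℝ) (hB : Continuous B) (C : ℝ)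
    (h1 : ∀ z x x' : ℝ, x ≤ x' → 0 ≤ H x' z - H x z ∧ H x' z - H x z ≤ x' - x) (h3 : ∀ x z z' : ℝ, |H x z - H x z'| ≤ C * |z - z'|) :
    Measurable (nmNu H B) ∧ ∀ a, 0 ≤ nmNu H B a ∧ nmNu H B a ≤ 1 :=
  nm_meas_lip H B hB C h1 h3

section memory

variable {π : SfPar} {C0 : ℝ} {κ : ℝ → ℝ} (S : NmSeq π C0 κ)

/-- **Y5** the left memory bound: whenever (iii) applies at `v = u(j)`.      OWNER helper198 (MEM), EST 300 -/
theorem nm_m_left (hπ : π.Valid) (hX : S.HasX) (q : NmQ) (hq : q.Fam π) (hg : q.ds.glob = false) (hg0 : q.g = 0) (hJ : 0 < π.J)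
    (a j : ℝ) (ha : 0 ≤ a ∧ a < j ∧ j < 1) (hl : q.l π a (π.u j) ≤ min (π.b1 j) 0) (hh : π.hyb = true → q.w π a (π.u j) < 0) :
    ∀ z : ℝ, 0 < z → z < π.Lraw * j → π.mu π.Lraw * z ≤ S.U q (π.u j + z) a (π.u j) :=
  nm_me_x_m_left S hπ hX q hq hg hg0 hJ a j ha hl hh

/-- **Y5** (mr) in prefix form.      OWNER helper198 (MEM), EST 250 -/
theorem nm_mr (hπ : π.Valid) (hX : S.HasX) (hc : π.hyb = false) (j : ℝ) (hj : 0 < j ∧ j < 1) :
    S.Rj j (π.u j) = 0 ∧ ∀ z : ℝ, 0 < z → z < π.Lraw * j → π.mu π.Lraw * z ≤ S.Rj j (π.u j + z) :=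
  nm_me_mr S hπ hX hc j hj

/-- **Y5** under the small right excess the increments of `U` dominate those of `R_j`.      OWNER helper198 (MEM), EST 250 -/
theorem nm_m_slab (hπ : π.Valid) (hX : S.HasX) (hc : π.hyb = false) (hb : 0 < π.Cr) (q : NmQ) (hq : q.Fam π) (hg0 : q.g = 0) :
    ∃ lam0 : ℝ, 0 < lam0 ∧ ∀ a j v x : ℝ, 0 < a → a < j → j ≤ q.ds.De → (q.ds.glob = true → j = q.ds.De) → π.u j ≤ v → v - π.u j ≤ lam0 * (j - a) →
      q.l π a v ≤ π.b1 j → v ≤ x → S.Rj j x - S.Rj j v ≤ S.U q x a v :=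
  nm_me_x_m_slab S hπ hX hc hb q hq hg0

/-- **Y5** `p_*` is nondecreasing and `≥ b_1` if `b_1' > 0`.      OWNER helper198 (MEM), EST 200 -/
theorem nm_pst (hπ : π.Valid) (hX : S.HasX) (hc : π.hyb = false) (ds : NmDs) (hds : ds.Raw π) :
    (∀ a a' : ℝ, 0 < a → a ≤ a' → a' < 1 → S.pst ds a ≤ S.pst ds a') ∧ (0 < π.Cr → ∀ a : ℝ, 0 < a → a < 1 → π.b1 a ≤ S.pst ds a) :=
  nm_me_pst S hπ hX hc ds hds

/-- **Y5** (i): strict extra prediction persisting to the left.      OWNER helper198 (MEM), EST 250 -/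
theorem nm_mr_strong (hπ : π.Valid) (hX : S.HasX) (Ds : Set ℝ) (h1 : (1 : ℝ) ∈ Ds) (hF : S.Flat Ds) (hc : π.hyb = false) (hb : 0 < π.Cr) (ds : NmDs) (hds : ds.Raw π)
    (j σ ρ : ℝ) (hj : 0 < j ∧ j < 1) (hσ : 0 < σ) (hρ : 0 < ρ) (hs : ∀ i : ℝ, j - ρ < i → i ≤ j → π.b1 j + σ ≤ S.pst ds i) :
    ∀ z : ℝ, 0 < z → z < π.LS * ρ → z < π.LS * j → π.mu π.LS * z ≤ S.Rj j (π.u j + z) :=
  nm_me_mr_strong S hπ hX Ds h1 hF hc hb ds hds j σ ρ hj hσ hρ hs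

/-- **Y5** (ii): `Q ≤ 1`, `0 < C_rate < 1` : the additional lower slope `k_0 + 2Γ - C_rate ν(j)` at almost every `j`.      OWNER helper198 (MEM), EST 350 -/
theorem nm_mr_weak (hπ : π.Valid) (hX : S.HasX) (Ds : Set ℝ) (h1 : (1 : ℝ) ∈ Ds) (hF : S.Flat Ds) (hc : π.hyb = false) (hQ : π.Qm ≤ 1) (hb : 0 < π.Cr ∧ π.Cr < 1)
    (ds : NmDs) (hds : ds.Raw π) : ∀ᵐ j : ℝ, 0 < j → j < 1 → ∀ e : ℝ, 0 < e → ∀ᶠ z in 𝓝[>] (0 : ℝ),
      (1 - π.d + 2 * π.Γ - π.Cr * nmNu (S.HP ds) π.b1 j - e) * z ≤ S.Rj j (π.u j + z) :=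
  nm_me_mr_weak S hπ hX Ds h1 hF hc hQ hb ds hds

end memory

section score

variable {π : SfPar} {C0 : ℝ} {κ : ℝ → ℝ} (S : NmSeq π C0 κ)

/-- **Y1** the increments of `𝓗` are the conditional entropies of the child and width names given `C_*`.      OWNER helper156 (PRO), EST 200 -/
theorem nm_tan_mean (hπ : π.Valid) (K0 e : ℝ) (r : NmRt) (hq : r.q.Fam π) (l : ℝ) (hl : 0 ≤ l * r.h) (h1 : ∀ᶠ n in uf, NmRep (S.D n) π r K0 e) :
    S.HC (S.nm r.q (r.a + l * r.h) r.v) (fun n => (S.D n).cs π r) = S.H r.q (r.a + l * r.h) r.v - S.H r.q r.a r.v ∧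
    S.HC (S.nm r.q r.a (r.v + l * r.h)) (fun n => (S.D n).cs π r) = S.H r.q r.a (r.v + l * r.h) - S.H r.q r.a r.v :=
  nm_pro_tan_mean S hπ K0 e r hq l hl h1

/-- **Y6** (ang) at the level of scores, at every root `(a,v) = (r.a, r.v)` where (ang) holds for the profile, for GOOD representatives (`NmRep`, slack `e` fixed before `h`).
MOVED ROOTS (asked by helper189 for `AcProd`): the datum may be rooted at any `(a',v')` within `η h` of `(a,v)`, with the trace `m(a,v)`; `η` depends on `acc`, `pk` and the Lipschitz constant of `U` (`nm_U_incr`).      OWNER helper219 (MRK), EST 500 -/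
theorem nm_tan_ang (hπ : π.Valid) (Ds : Set ℝ) (hF : S.Flat Ds) (r : NmRt) (hq : r.q.Fam π) (hD : r.q.ds.De ∈ Ds)
    (hang : ∀ p : ℝ, 0 ≤ p → Tendsto (fun h : ℝ => S.U r.q (r.v + p * h) r.a r.v / h) (𝓝[>] 0) (𝓝 (S.m r.q r.a r.v * p)))
    (pk : ItPk) (hpk : pk.Ok) (acc e K0 : ℝ) (hacc : 0 < acc) (he : 0 < e) : ∃ η h0 : ℝ, 0 < η ∧ 0 < h0 ∧ ∀ h : ℝ, 0 < h → h ≤ h0 →
      ∀ a' v' : ℝ, |a' - r.a| ≤ η * h → |v' - r.v| ≤ η * h → 0 ≤ a' → a' ≤ r.q.ds.De → 0 ≤ v' → ∀ᶠ n in uf,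
      ∀ (dsp : ℝ → NmNm → NmNm → ItDsp) (a : ItPar),
        a.m = S.m r.q r.a r.v → NmRep (S.D n) π { r with a := a', v := v' } K0 e →
        NmAng (nmTan (S.D n) π { r with a := a', v := v', h := h } dsp) a pk acc :=
  nm_mk_tan_ang S hπ Ds hF r hq hD (fun a v => nm_U_basic S hπ r.q hq a v) (nm_U_incr S hπ r.q hq).2 hang pk hpk acc e K0 hacc he

/-- **Y6** (Prop. names:mark-dimension): all clauses of `Tan.AdmM` at almost every time root.   `r0` carries `(q, σ, Rm, B)`; `a` is the time root, `v`, `h` are free.   The layer ratio `κ1` depends only on `c'`.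
MOVED ROOTS: the datum may be rooted at any admissible `(a',v')` with `|a' - a| ≤ η h`, with the trace `ν(a)` (`HM` is `1`-Lipschitz in both variables; the marks do not depend on the width).      OWNER helper219 (MRK), EST 1000 -/
theorem nm_tan_marks (hπ : π.Valid) (hX : S.HasX) (Ds : Set ℝ) (hF : S.Flat Ds) : ∃ Λ B1 : ℝ, ∀ r0 : NmRt, r0.q.ds.De ∈ Ds → B1 ≤ r0.B → ∀ᵐ a : ℝ,
    0 < r0.c π → ∃ κ1 : ℝ, 0 < κ1 ∧ ∀ tl : ℝ, 0 < tl → ∀ pk : ItPk, pk.Ok → ∀ acc : ℝ, 0 < acc → ∃ η h0 : ℝ, 0 < η ∧ 0 < h0 ∧ ∀ h : ℝ, 0 < h → h ≤ h0 →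
      ∀ a' v' : ℝ, |a' - a| ≤ η * h → NmRt.Ok { r0 with a := a', v := v' } π Λ → (r0.σ.exact = true → r0.σ.lin = false → r0.σ.xs < S.pst r0.q.ds a') →
      NmRt.Fits { r0 with a := a', v := v', h := h } π pk → ∀ᶠ n in uf,
      ∀ (dsp : ℝ → NmNm → NmNm → ItDsp) (p : ItPar),
        NmRt.Reg r0 π (r0.B + 1) p → p.ν = nmNu (S.HM r0.Vq r0.Sd) (r0.Bg π) a →
        (nmTan (S.D n) π { r0 with a := a', v := v', h := h } dsp).AdmM p pk tl κ1 acc :=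
  nm_mq_tan_marks S hπ hX Ds hF (fun ds hds V hV Sd => nm_HM_basic S hπ ds hds V hV Sd)

end score

end

end Claimed.Agent.R256
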