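import Claimed.Agent.R256.Nm.Base
import Claimed.Agent.R256.Nm.Sd.Main

/-!
# Row 256 (S0496), unit NM: E2(a), the side is predicted by the rows / labels of the later gates      (chief helper118; prefix `nm_`)

Stated BELOW `Nm/Contract.lean` (imports `Nm/Base` only) so that the units (MRK, GRD) may cite them without an import cycle.
Post BP-256-NM-GRD-SIDE.  The prover works in `Nm/Sd/*.lean` (import `Nm/Base`, `Nm/Pred/*`), then this file imports his and cites.
-/

set_option autoImplicit false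

namespace Claimed.Agent.R256

open Claimed.Agent.R255
open Claimed.Agent.R255.FLaw (pair)
open Filter Topology
open Classical

noncomputable section

/-- **E2(a)** on charged rows with a successful list of `[P]_{x_*}` every row of a gate `i ≥ a` sees `≤ s^(-acc)` values of the side (04 l.672-684; X4, (A), `base`, `normC/H`, `grid`).      PROVED (`Nm/Sd/Main.lean`, helper51) -/
theorem nm_side_pr (π : SfPar) (hπ : π.Valid) (C0 τ κ0 : ℝ) : ∃ Λ : ℝ, ∀ r : NmRt, r.Ok π Λ → ∀ i : ℝ, r.a ≤ i → i < r.q.ds.De →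
    ∀ acc : ℝ, 0 < acc → ∃ e0 : ℝ, 0 < e0 ∧ ∃ t0 : ℝ, 0 < t0 ∧ ∀ D : SfDoc, D.Fine π C0 τ κ0 t0 → nmX π D t0 → ∀ G : D.Row 1 → Prop,
      (r.σ.exact = true → r.σ.lin = false → (D.P 1).NVal G (D.Pc π r.q.ds r.σ.xs) (pair D.y0 (D.tc r.a)) (D.s ^ (-e0))) →
      D.RowPr (D.gt i) (fun ω => (D.P 1).p ω ≠ 0 ∧ G ω) (D.side π r.q r.σ r.a) (D.s ^ (-acc)) :=
  nm_sd_pr π hπ C0 τ κ0

/-- **E2(a)**, `c = 1`: the left slack makes the LABELS of the gates `i ≥ a` with `V < u(i)` predict the coarse side (X5 (iii)); QUADRATIC branch only (the only use: names:separation at `c = 1`).      PROVED (`Nm/Sd/Main.lean`, helper51) -/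
theorem nm_side_prL (π : SfPar) (hπ : π.Valid) (C0 τ κ0 : ℝ) : ∃ Λ : ℝ, ∀ r : NmRt, r.Ok π Λ → r.σ.exact = false → r.q.ds.glob = false → r.σ.lin = false →
    ∀ i : ℝ, r.a ≤ i → i < 1 → r.σ.V < π.u i → r.q.l π r.σ.A r.σ.V < min (π.b1 i) 0 →
    NmA π C0 τ κ0 fun acc D => D.LabPr (D.gt i) (fun ω => (D.P 1).p ω ≠ 0) (D.side π r.q r.σ r.a) (fun _ => ()) (D.s ^ (-acc)) :=
  nm_sd_prL π hπ C0 τ κ0

end

end Claimed.Agent.R256
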