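import Claimed.Agent.R256.Nm.Contract
import Claimed.Agent.R256.Nm.Side
import Claimed.Agent.R256.Nm.Pro.Pcl
import Claimed.Agent.R256.Nm.Sd.Mark
import Claimed.Agent.R256.Lay.Prod
import Claimed.Agent.R256.Nm.Grd.Mean
import Claimed.Agent.R256.Nm.Grd.Main

/-!
# Row 256 (S0496), unit NM, ADAPTER TO LAY (04B) = entry E2 of `Lay/Contract.lean`, `hIn` of `Lay/Prod.lean`  v2      (chief helper118; prefix `nm_`)

`nmGr D π r dsp A B M : LayGr` = `layGrOf` (helper189) with the CANONICAL representatives of `Nm/Defs.lean`: `Cst a v = D.cst π { r with a, v }`, `Fst a v = D.fst π { r with a, v }`.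
The representative of a value of the side (`D.rpr`) depends only on the time root: the SAME final row represents it at all widths (needed by `wnest`, `wphase`).
A PATCH = `r0` (carries `q, σ, Rm, B`) + a closed rectangle `[a0,a1] × [v0,v1]` of admissible roots (`NmRt.Patch`).

 E2(a)  `nm_side_pr`, `nm_side_prL`      `RowPr`, `LabPr` of the side at the gates `≥ a`, on the success event `E` (charged rows; exact quadratic sides: success of the list of `[P]_{x_*}`)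
        `nm_pclist`                      exact quadratic sides: after one more final conditioning the success event is the whole support (`Tan.Avoid` asks a power of `δ`: no exceptional event is allowed)
 E2(b)  `nm_gr_in`                       `LayGr.In` (X1, X7, X10, X11, `qlist`, `acap`, `mkfin`) = `hIn` of `lay_bud_ae` through `nm_A_uf`
 E2(c)  `nm_gr_lift`                     one record ⇒ replicas: `NmAng`, `AdmM`, `AdmG` of `nmTan` give `Tan.layNm` of `g.tan i k`   (paper free)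
        `nm_gr_most`                     `hNm` of `lay_select` (finite form): all but `ε na nv` of the grid roots
        pointwise form (for `AcProd`): `nm_tan_ang`, `nm_tan_marks`, `nm_tan_geo`, `nm_tan_time` of `Nm/Contract.lean` at the root + Lipschitz profiles (`nm_U_incr`, `nm_H_lip`)
 E2(d)  `nm_gr_mark`                     the stored marks are the normalised `(T_end, β_obs)`, resp. derivative, in a frame which is a function of the side
        `nm_gr_mean`                     the entropies of `lay_exit_mean` are the increments of `𝓗`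
ORDER OF CONSTANTS (as in `Lay/Contract.lean`): family → `Λ, B0` → patch → `pk`, `K ≤ Kf`, `RQ ≤ Kf`, `Rm`, `RX`, steps `A`, `B` → `h0` → `h`, origin, `na`, `nv` → `acc` → `t0` → `D`.
-/

set_option autoImplicit false

namespace Claimed.Agent.R256

open Claimed.Agent.R255
open Claimed.Agent.R255.FLaw (pair)
open Filter Topology
open Classical

noncomputable section

/-- every point of the closed rectangle is an admissible root -/
def NmRt.Patch (r0 : NmRt) (π : SfPar) (Λ a0 a1 v0 v1 : ℝ) : Prop :=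
  a0 < a1 ∧ v0 < v1 ∧ ∀ a v : ℝ, a0 ≤ a → a ≤ a1 → v0 ≤ v → v ≤ v1 → NmRt.Ok { r0 with a := a, v := v } π Λ

/-- **the grid datum of a documented configuration**, canonical representatives; origin `(r.a, r.v)`, gap `r.h`, steps `A h`, `B h` -/
def nmGr (D : SfDoc) (π : SfPar) (r : NmRt) (dsp : ℝ → ℝ → ℝ → NmNm → NmNm → ItDsp) (A B M : ℕ) : LayGr :=
  layGrOf D π r (fun a v => D.cst π { r with a := a, v := v }) (fun a v => D.fst π { r with a := a, v := v }) dsp A B M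

/-- the root `(i, k)` of the grid -/
def NmRt.at (r : NmRt) (A B i k : ℕ) : NmRt := { r with a := r.a + i * (A * r.h), v := r.v + k * (B * r.h) }

/-- (ii) without exceptional event -/
def SfDoc.PcAll (D : SfDoc) (π : SfPar) (r : NmRt) (e : ℝ) : Prop :=
  r.σ.exact = true → r.σ.lin = false → (D.P 1).NVal (fun _ => True) (D.Pc π r.q.ds r.σ.xs) (pair D.y0 (D.tc r.a)) (D.s ^ (-e))

/-- TYPE A statements hold for `uf`-most configurations of a sequence (monotonicity of `Fine`, `nmX` in the tolerance: unit MONO of Soft).      OWNER open (PRO), EST 150 -/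
theorem nm_A_uf {π : SfPar} {C0 : ℝ} {κ : ℝ → ℝ} (S : NmSeq π C0 κ) (hX : S.HasX) (τ : ℝ) (hτ : 0 < τ) (Φ : ℝ → SfDoc → Prop) (h : NmA π C0 τ (κ τ) Φ)
    (acc : ℝ) (hacc : 0 < acc) : ∀ᶠ n in uf, Φ acc (S.D n) :=
  nm_me_uf S hX τ hτ Φ h acc hacc

/-! ## E2(a) -/

/-! `nm_side_pr`, `nm_side_prL` : see `Nm/Side.lean` (below `Contract`, so that the units may cite them) -/

/-- **E2(a)** exact quadratic sides, `x_* < p_*(a)` at COUNTABLY many roots (asked by helper277: all grid roots of the a.e. selection; diagonal): one more conditioning of the final laws (mass `→ 1`) removes the exceptional events;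
flatness (also off power-small sets) and all conditional entropies are kept.   `Ds` COUNTABLE.      PROVED (helper156, `Nm/Pro/Pcl.lean`) -/
theorem nm_pclist {π : SfPar} {C0 : ℝ} {κ : ℝ → ℝ} (hπ : π.Valid) (S : NmSeq π C0 κ) (hX : S.HasX) (Ds : Set ℝ) (hDs : Ds.Countable) (hF : S.Flat Ds) (R : Set NmRt) (hRc : R.Countable)
    (hR : ∀ r ∈ R, r.q.Fam π ∧ r.q.ds.De ∈ Ds ∧ r.σ.xs < S.pst r.q.ds r.a) :
    ∃ S' : NmSeq π C0 (fun τ => κ τ / 2), S'.HasX ∧ S'.Flat Ds ∧ S'.FlatP (1 / 8) Ds ∧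
      (∀ L L' : List NmAt, (∀ x ∈ L, x ≠ NmAt.y0 ∧ x.Ok π Ds) → (∀ x ∈ L', x.Ok π Ds) → S'.HC (S'.ats L) (S'.ats L') = S.HC (S.ats L) (S.ats L')) ∧
      ∀ e : ℝ, 0 < e → ∀ r ∈ R, ∀ᶠ n in uf, (S'.D n).PcAll π r e := by
  obtain ⟨S', h1, h2, h3, h4, h5⟩ := nm_pro_pclist hπ S hX Ds hDs hF R hRc hR
  exact ⟨S', h1, h2, h3, h4, fun e he r hr => (h5 e he r hr).mono fun n hn _ _ => hn⟩

/-! ## E2(b) -/

/-- **E2(b)** `LayGr.In` on every grid inside the patch.   `B ≥ Kf + 2`, `min(1,c') A ≥ Rm + 2` (nonconstant cuts: also `(c-1) A ≥ Rm + 2`, the child reads `𝔨` only to `δ^((c-1) A)`), `Rm ≥ 2 Kf + 2`, `RX > 3 Rm`.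
`wnest`, `tnest`: X1;  `rep*`, `ang*`, `bdF`: `nm_rep`;  `wphase` = X11 (04 l.936-947), `read` = X10 (04 l.963-1000; algebra `lay_read_quad`, `lay_read_lin`): statements on ONE `NmRaw` + `nm_rep`;  `qlist`, `mkfin`, `acap`: paper free.
OWNER open (GRD), EST 3500 -/
theorem nm_gr_in (π : SfPar) (hπ : π.Valid) (C0 τ κ0 : ℝ) : ∃ Λ B0 : ℝ, 1 ≤ B0 ∧ ∀ (r0 : NmRt) (a0 a1 v0 v1 : ℝ), r0.Patch π Λ a0 a1 v0 v1 → r0.B = B0 →
    ∀ (A B M : ℕ) (K Kf RQ RX : ℝ), 0 ≤ K → K ≤ Kf → RQ ≤ Kf → Kf + 2 ≤ B → 2 * Kf + 2 ≤ r0.Rm → r0.Rm + 2 ≤ min 1 (r0.c π) * A →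
    (r0.q.ds.cut = NmCut.slope → r0.Rm + 2 ≤ (r0.q.ds.bs - 1) * A) → 3 * r0.Rm < RX →
    ∃ h0 : ℝ, 0 < h0 ∧ ∀ h : ℝ, 0 < h → h < h0 → ∀ (x0 y0 : ℝ) (na nv : ℕ), a0 ≤ x0 → v0 ≤ y0 → x0 + na * (A * h) ≤ a1 → y0 + nv * (B * h) ≤ v1 →
    NmA π C0 τ κ0 fun e D => ∀ dsp : ℝ → ℝ → ℝ → NmNm → NmNm → ItDsp,
      (nmGr D π { r0 with a := x0, v := y0, h := h } dsp A B M).In na nv K Kf RQ RX (B0 + 1) ((D.s ^ h) ^ (-e)) := by
  obtain ⟨Λ, h⟩ := nm_grd_in π hπ C0 τ κ0
  exact ⟨Λ, 3, by norm_num, fun r0 a0 a1 v0 v1 hp hB => h 3 le_rfl r0 a0 a1 v0 v1 hp hB⟩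

/-! ## E2(c) : `nm_gr_lift`, `nm_gr_most` (finite form, fallback route `lay_select`) had NO consumer and were DELETED (helper189, 23:32Z): the roots go through `lay_root_rect` / `lay_root_patch` (`lay_bud_ae`, `lay_lift`). -/

/-! ## E2(d) -/

/-- **E2(d)** on charged rows the stored marks are, up to `δ^Rm`, the normalised time and second mark in the frame `(t_a, R_a, k_a)` (resp. `L`) which is a function of the side; the exact normalised marks are bounded by `3`;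
endpoint `De = 1`: `Te = T_1`, `be = β_1(T_1)`.   `k_a = 0` unless the cut is `slope` (`c_2 > 1`); then `k_a = [K_1]_{b(a)-a}` is only polynomial: `|k_a| ≤ s^(-(c_2+2))` (form agreed with helper189: `lay_avoid_doc`).
PROVED (`Nm/Sd/Mark.lean`, helper51, helper173) -/
theorem nm_gr_mark (π : SfPar) (hπ : π.Valid) (C0 τ κ0 : ℝ) : ∃ Λ B1 : ℝ, 1 ≤ B1 ∧ ∀ r : NmRt, r.Ok π Λ → B1 ≤ r.B → 0 < r.h →
    NmA π C0 τ κ0 fun _ D => ∃ ta Ra ka : NmZv D.Idx → ℝ, (∀ x, |ka x| ≤ D.s ^ (-(π.c2 + 2))) ∧ (r.q.ds.cut ≠ NmCut.slope → ∀ x, ka x = 0) ∧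
      ∀ ω, (D.P 1).p ω ≠ 0 →
      (|((D.raw π r.q.ds ω).Te - ta (D.side π r.q r.σ r.a ω)) / D.s ^ r.a| ≤ 2 ∧
        |(D.smk π r ω).th - ((D.raw π r.q.ds ω).Te - ta (D.side π r.q r.σ r.a ω)) / D.s ^ r.a| ≤ (D.s ^ r.h) ^ r.Rm) ∧
      (r.σ.lin = false →
        |((D.raw π r.q.ds ω).be - (Ra (D.side π r.q r.σ r.a ω)
          + ka (D.side π r.q r.σ r.a ω) * ((D.raw π r.q.ds ω).Te - ta (D.side π r.q r.σ r.a ω)))) / D.s ^ (r.q.ds.b r.a)| ≤ 3 ∧
        |(D.smk π r ω).r - ((D.raw π r.q.ds ω).be - (Ra (D.side π r.q r.σ r.a ω)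
          + ka (D.side π r.q r.σ r.a ω) * ((D.raw π r.q.ds ω).Te - ta (D.side π r.q r.σ r.a ω)))) / D.s ^ (r.q.ds.b r.a)| ≤ (D.s ^ r.h) ^ r.Rm) ∧
      (r.σ.lin = true →
        |((D.raw π r.q.ds ω).Lraw D.s r.q r.a - Ra (D.side π r.q r.σ r.a ω)) / D.s ^ (π.b1 r.a)| ≤ 1 ∧
        |(D.smk π r ω).r - ((D.raw π r.q.ds ω).Lraw D.s r.q r.a - Ra (D.side π r.q r.σ r.a ω)) / D.s ^ (π.b1 r.a)| ≤ (D.s ^ r.h) ^ r.Rm) :=
  ⟨0, 3, by norm_num, fun r hr hB hh => nm_mk_main π hπ C0 τ κ0 0 r hr hB hh⟩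

/-- the entropies of `lay_exit_mean` are the increments of `𝓗`, in units of `log (1/δ) = h log (1/s)`, at one root.      OWNER open (GRD), EST 250 -/
theorem nm_gr_mean {π : SfPar} {C0 : ℝ} {κ : ℝ → ℝ} (hπ : π.Valid) (S : NmSeq π C0 κ) (hX : S.HasX) : ∃ Λ : ℝ, ∀ r : NmRt, r.Ok π Λ → 0 < r.h →
    ∀ l : ℝ, 0 < l → r.a + l * r.h ≤ r.q.ds.De → ∀ σ : ℝ, 0 < σ → ∀ᶠ n in uf,
      |((S.D n).P 1).entC ((S.D n).nm π r.q (r.a + l * r.h) r.v) ((S.D n).cs π r) / (r.h * (S.D n).lgs)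
          - (S.H r.q (r.a + l * r.h) r.v - S.H r.q r.a r.v) / r.h| ≤ σ ∧
      |((S.D n).P 1).entC ((S.D n).nm π r.q r.a (r.v + l * r.h)) ((S.D n).cs π r) / (r.h * (S.D n).lgs)
          - (S.H r.q r.a (r.v + l * r.h) - S.H r.q r.a r.v) / r.h| ≤ σ :=
  nm_gd_mean S hπ hX

theorem nm_grid_eqns_cite : True := by
  have := @NmRt.Patch.eq_1; have := @nmGr.eq_1; have := @NmRt.at.eq_1; have := @SfDoc.PcAll.eq_1
  trivial

end

end Claimed.Agent.R256
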