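import Claimed.Agent.R256.Soft.Doc
import Claimed.Agent.R256.Int.Defs
import Claimed.Agent.R255.Base.Ulim

/-!
# Row 256 (S0496), unit NM (Sec. 4A = 04-canonical-names.tex l.1-729), file 1: DEFINITIONS      (chief helper118; prefix `nm_`, types `Nm*`)

Sources: reports 848 (helper103), 836 (helper51).   DEFINITIONS ONLY.   Everything is read on the FINAL rows `D.Row 1` of a documented configuration `D : SfDoc` (`R256/Soft/Doc.lean`, helper19) with the final assigned law `D.P 1`.

## Vocabulary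
* `nmLev s b : ℤ`, `nmCell s b x : ℤ`, `nmRep s b x : ℝ` : absolute dyadic cells of mesh `2^(-nmLev s b) ∈ (s^b / 2, s^b]` at EVERY real depth `b` (negative depths occur: `b(a) = c (a - 1) ≤ 0`).  For `b ≥ 0` they are `tcell`, `trep` of R255.
* `NmDs` = curvature display (Def. names:curvature-displays): `cut` (`slope` : `c > 1`; `const` : `c ≤ 1` and the strict display; `none` : pure linear), `glob` (the strict display records and subtracts `k̄`), endpoint `De`, `b a = b0 + bs (a - De)`.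
  `nmDsEq π`, `nmDsLin π`, `nmDsStr π De`.       * `NmTp` = template (`quad`, `clip`, `plin`);   `NmQ = (ds, tp, g)`;   `q.l π a v`, `q.w π a v`, `q.W π a v`.
* `NmRaw` = the real numbers which a name reads on a final row, AFTER the global subtraction of the strict display: `T` terminal time, `Te` time of the endpoint label, `z` residual ray, `P` residual derivative, `be`, `K` residual curvature data at `Te`, `kb` the bin `k̄`.
* `x.name s π q a v : NmNm` = the canonical name `𝒞(a,v)` (Def. names:canonical-name), ten integers.   `x.mark s π q a quad : ItMk` = the marks (xi), `nmStore` = stored marks.   `x.phase s π q a v quad n : ItPh` = the actual normalised phase in the frame of the root name `n`.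
* `D.gt i` = the gate nearest to `i`,  `D.labAt i ω` = the label met at the depth `i` (`i = 1`: the sampled final label),  `D.raw π ds ω`,  `D.nm π q a v`,  `D.Xc x`,  `D.tc z`,  `D.side π q σ a`  (Def. names:side, `σ : NmSd`; independent of `v`).
* `D.Fine π C0 τ κ0 t` = `D.Ok π C0 τ κ0 t`, scale `≤ t`, gates `t`-dense.      `D.LabPr`, `D.RowPr` = prediction with lists ALONG `Conn` (on every completing path).
* `NmSeq π C0 κ` = a sequence of fine configurations (for ALL cost improvements `τ`, rigidity `κ τ`), tolerance `→ 0`;  profiles `S.H`, `S.D0`, `S.E`, `S.U`, `S.HC`, `S.Hom` as ultralimits at ALL real parameters.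
* `nmTan` = the ONE-RECORD tangent datum (`Tan` of `R256/Int/Defs.lean`) at a root `(a, v)` with the gap `h`.
-/

set_option autoImplicit false

namespace Claimed.Agent.R256

open Claimed.Agent.R255
open Claimed.Agent.R255.FLaw (pair)
open Filter Topology
open Classical

noncomputable section

/-! ## 1. Cells at all real depths -/

/-- the dyadic level of the depth `b` at the scale `s` -/
def nmLev (s b : ℝ) : ℤ := ⌈b * Real.logb 2 (1 / s)⌉

/-- the absolute dyadic cell of `x` at the depth `b` -/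
def nmCell (s b x : ℝ) : ℤ := ⌊x * (2 : ℝ) ^ nmLev s b⌋

/-- its left end point -/
def nmRep (s b x : ℝ) : ℝ := (nmCell s b x : ℝ) / (2 : ℝ) ^ nmLev s b

/-! ## 2. Displays, templates -/

/-- how the curvature trajectory is cut -/
inductive NmCut
  | slope
  | const
  | none

/-- the template -/
inductive NmTp
  | quad
  | clip
  | plin

/-- a curvature display -/
structure NmDs where
  cut : NmCut
  glob : Bool
  De : ℝ
  b0 : ℝ
  bs : ℝ

/-- `b(a)` -/
def NmDs.b (δ : NmDs) (a : ℝ) : ℝ := δ.b0 + δ.bs * (a - δ.De)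

/-- (i) quadratic equality -/
def nmDsEq (π : SfPar) : NmDs := ⟨if 1 < π.c2 then NmCut.slope else NmCut.const, false, 1, 0, π.c2⟩

/-- (ii) pure linear -/
def nmDsLin : NmDs := ⟨NmCut.none, false, 1, 0, 0⟩

/-- (iii) strict, endpoint `De` -/
def nmDsStr (π : SfPar) (De : ℝ) : NmDs := ⟨NmCut.const, true, De, π.b2 De, 1⟩

/-- display, template, enlargement -/
structure NmQ where
  ds : NmDs
  tp : NmTp
  g : ℝ

namespace NmQ

/-- `l(a,v)` -/
def l (q : NmQ) (π : SfPar) (a v : ℝ) : ℝ :=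
  match q.tp with
  | NmTp.quad => q.ds.b a + v
  | NmTp.clip => min (q.ds.b a + v) (π.b1 a)
  | NmTp.plin => π.b1 a

/-- `w(a,v)` -/
def w (q : NmQ) (π : SfPar) (a v : ℝ) : ℝ :=
  match q.tp with
  | NmTp.quad => q.ds.b a + 2 * v
  | NmTp.clip => min (q.ds.b a + v) (π.b1 a) + v
  | NmTp.plin => π.b1 a + v

/-- `W(a,v) = (3+η) v + (1-η) (w - g)` -/
def W (q : NmQ) (π : SfPar) (a v : ℝ) : ℝ := (3 + π.η) * v + (1 - π.η) * (q.w π a v - q.g)

/-- the benchmark exponent `(p+d) a + W(a,v)` -/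
def Z (q : NmQ) (π : SfPar) (a v : ℝ) : ℝ := (π.p + π.d) * a + q.W π a v

end NmQ

/-! ## 3. Raw data, names, marks -/

/-- what a name reads on a final row (after the global subtraction of the strict display) -/
structure NmRaw where
  T : ℝ
  Te : ℝ
  z : SfRay
  P : ℝ
  be : ℝ
  K : ℝ
  kb : ℤ

/-- a canonical name -/
structure NmNm where
  kb : ℤ
  t : ℤ
  R : ℤ
  k : ℤ
  L : ℤ
  X : ℤ
  B : ℤ
  Y : ℤ
  N : ℤ
  D : ℤ

/-- the zero name -/
def nmZero : NmNm := ⟨0, 0, 0, 0, 0, 0, 0, 0, 0, 0⟩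

namespace NmRaw

variable (x : NmRaw) (s : ℝ) (π : SfPar) (q : NmQ) (a v : ℝ)

/-- the largest real entry -/
def size : ℝ := max x.z.size (max |x.P| (max |x.be| |x.K|))

/-- `t_a` -/
def ta : ℝ := nmRep s a x.T

/-- the number whose cell is `R_a` -/
def Rraw : ℝ :=
  match q.ds.cut with
  | NmCut.slope => x.be + (x.ta s a - x.Te) * x.K
  | NmCut.const => x.be
  | NmCut.none => 0

/-- the bin of `R_a` -/
def Rc : ℤ := nmCell s (q.ds.b a) (x.Rraw s q a)

/-- `R_a` (value at `t_a`) -/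
def Ra : ℝ := nmRep s (q.ds.b a) (x.Rraw s q a)

/-- the number whose cell is `k_a` -/
def kraw : ℝ :=
  match q.ds.cut with
  | NmCut.slope => x.K
  | NmCut.const => 0
  | NmCut.none => 0

/-- the bin of `k_a` -/
def kc : ℤ := nmCell s (q.ds.b a - a) (x.kraw q)

/-- `k_a` -/
def ka : ℝ := nmRep s (q.ds.b a - a) (x.kraw q)

/-- `P - 2 R_a X + 2 k_a B_{t_a}` -/
def Lraw : ℝ := x.P - 2 * x.Ra s q a * x.z.X + 2 * x.ka s q a * x.z.Bt (x.ta s a)

/-- the bin of `L` -/
def Lc : ℤ := nmCell s (q.l π a v) (x.Lraw s q a)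

/-- `L` -/
def La : ℝ := nmRep s (q.l π a v) (x.Lraw s q a)

/-- the residual normal velocity -/
def Nres : ℝ :=
  x.z.N - x.La s π q a v * x.z.X - x.Ra s q a * x.z.X ^ 2
    - x.ka s q a * (x.z.Yt (x.ta s a) - 2 * x.z.X * x.z.Bt (x.ta s a))

/-- the residual normal position at `t_a` -/
def Dres : ℝ :=
  x.z.Dt (x.ta s a) - x.La s π q a v * x.z.Bt (x.ta s a) - x.Ra s q a * x.z.Yt (x.ta s a)
    + x.ka s q a * x.z.Bt (x.ta s a) ^ 2

/-- **the canonical name `𝒞(a,v)`** -/
def name : NmNm where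
  kb := x.kb
  t := nmCell s a x.T
  R := x.Rc s q a
  k := x.kc s q a
  L := x.Lc s π q a v
  X := nmCell s v x.z.X
  B := nmCell s (a + v) (x.z.Bt (x.ta s a))
  Y := nmCell s (a + 2 * v) (x.z.Yt (x.ta s a) - 2 * nmRep s v x.z.X * x.z.Bt (x.ta s a))
  N := nmCell s (q.w π a v - q.g) (x.Nres s π q a v)
  D := nmCell s (a + q.w π a v - q.g) (x.Dres s π q a v)

/-- **the marks (xi)**; `quad` = quadratic branch.   They do NOT depend on `v` (linear branch: `l = b_1(a)`). -/
def mark (x : NmRaw) (s : ℝ) (π : SfPar) (q : NmQ) (a : ℝ) (quad : Bool) : ItMk where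
  th := (x.Te - x.ta s a) / s ^ a
  r := if quad then (x.be - (x.Ra s q a + (x.Te - x.ta s a) * x.ka s q a)) / s ^ (q.ds.b a)
    else (x.Lraw s q a - nmRep s (π.b1 a) (x.Lraw s q a)) / s ^ (π.b1 a)
  k := (x.kraw q - x.ka s q a) * s ^ (a - q.ds.b a)

/-- **the actual normalised phase** of `x` in the frame of a root name `n` at `(a,v)`: subtract the displayed shear of `n`, centre and boost in its cell, dilate by `s^a, s^v, s^w`  (Lemma names:common-phase) -/
def phase (quad : Bool) (n : NmNm) : ItPh :=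
  let t : ℝ := (n.t : ℝ) / (2 : ℝ) ^ nmLev s a
  let R : ℝ := (n.R : ℝ) / (2 : ℝ) ^ nmLev s (q.ds.b a)
  let k : ℝ := (n.k : ℝ) / (2 : ℝ) ^ nmLev s (q.ds.b a - a)
  let L : ℝ := (n.L : ℝ) / (2 : ℝ) ^ nmLev s (q.l π a v)
  let xc : ℝ := (n.X : ℝ) / (2 : ℝ) ^ nmLev s v
  { X := (x.z.X - xc) / s ^ v
    B := (x.z.Bt t - (n.B : ℝ) / (2 : ℝ) ^ nmLev s (a + v)) / s ^ (a + v)
    P := if quad then (x.P - 2 * R * x.z.X + 2 * k * x.z.Bt t - L) / s ^ (q.l π a v) else 0
    Y := (x.z.Yt t - 2 * xc * x.z.Bt t - (n.Y : ℝ) / (2 : ℝ) ^ nmLev s (a + 2 * v)) / s ^ (a + 2 * v)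
    N := (x.z.N - L * x.z.X - R * x.z.X ^ 2 - k * (x.z.Yt t - 2 * x.z.X * x.z.Bt t)
      - (n.N : ℝ) / (2 : ℝ) ^ nmLev s (q.w π a v - q.g)) / s ^ (q.w π a v)
    D := (x.z.Dt t - L * x.z.Bt t - R * x.z.Yt t + k * x.z.Bt t ^ 2
      - (n.D : ℝ) / (2 : ℝ) ^ nmLev s (a + q.w π a v - q.g)) / s ^ (a + q.w π a v) }

end NmRaw

/-- sup distance of two phases -/
def nmPhDist (f g : ItPh) : ℝ := max (max (max |f.X - g.X| |f.B - g.B|) (max |f.P - g.P| |f.Y - g.Y|)) (max |f.N - g.N| |f.D - g.D|)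

/-- **stored marks**: cut-off depth `Rm` at the scale `δ`, bound `B` (a mark larger than `B` is stored as `0`; this never happens on charged rows) -/
def nmStore (δ Rm B : ℝ) (μ : ItMk) : ItMk :=
  if |μ.th| ≤ B ∧ |μ.r| ≤ B ∧ |μ.k| ≤ B then ⟨trep δ Rm μ.th, trep δ Rm μ.r, trep δ Rm μ.k⟩ else ⟨0, 0, 0⟩

/-! ## 4. Names on a documented configuration -/

namespace SfDoc

variable (D : SfDoc) (π : SfPar)

/-- the gate nearest to the depth `i` (approximated gates) -/
def gt (i : ℝ) : ℝ := if h : D.G.Nonempty then (D.G.exists_min_image (fun j => |j - i|) h).choose else 1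

/-- the label met at the depth `i` (at the gate `D.gt i`) on a chosen connecting chain of the final row `ω`; `i = 1`: the sampled final label -/
def labAt (i : ℝ) (ω : D.Row 1) : SfTest :=
  if i = 1 then D.lab 1 ω else if h : ∃ ρ, D.Conn (D.gt i) 1 ρ ω then D.lab (D.gt i) h.choose else sfZero

/-- `k̄` as a real number (`0` if the display has no global bin) -/
def kbar (ds : NmDs) (ω : D.Row 1) : ℝ :=
  if ds.glob then nmRep D.s (π.b2 ds.De - ds.De) (D.labAt ds.De ω).K else 0

/-- the raw data of the final row `ω` in the display `ds` -/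
def raw (ds : NmDs) (ω : D.Row 1) : NmRaw where
  T := D.T 1 ω
  Te := (D.labAt ds.De ω).T
  z := ⟨(D.ray 1 ω).X, (D.ray 1 ω).B, (D.ray 1 ω).Y,
    (D.ray 1 ω).N - D.kbar π ds ω * ((D.ray 1 ω).Y - 2 * (D.ray 1 ω).X * (D.ray 1 ω).B),
    (D.ray 1 ω).D + D.kbar π ds ω * (D.ray 1 ω).B ^ 2⟩
  P := (match ds.cut with
    | NmCut.none => (D.labAt ds.De ω).Pc
    | _ => (D.labAt ds.De ω).Pd (D.ray 1 ω)) + 2 * D.kbar π ds ω * (D.ray 1 ω).B
  be := (D.labAt ds.De ω).be - D.kbar π ds ω * (D.labAt ds.De ω).T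
  K := (D.labAt ds.De ω).K - D.kbar π ds ω
  kb := if ds.glob then nmCell D.s (π.b2 ds.De - ds.De) (D.labAt ds.De ω).K else 0

/-- the canonical name as an observation of the final law -/
def nm (q : NmQ) (a v : ℝ) : D.Row 1 → NmNm := fun ω => (D.raw π q.ds ω).name D.s π q a v

/-- the angular cell `X^(x)` -/
def Xc (x : ℝ) : D.Row 1 → ℤ := fun ω => nmCell D.s x (D.ray 1 ω).X

/-- the time cell `t_z` -/
def tc (z : ℝ) : D.Row 1 → ℤ := fun ω => nmCell D.s z (D.T 1 ω)

/-- the exact particle `y_0`, WITH its ray (defect of helper143: `Core` does not say that two final rows with the same index have the same ray;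
every row of an earlier gate still determines the pair: `base`, `normC`) -/
def y0 : D.Row 1 → D.Idx × SfRay := fun ω => (D.idx 1 ω, D.ray 1 ω)

/-- the bin `[P]_x` of the derivative of the display -/
def Pc (ds : NmDs) (x : ℝ) : D.Row 1 → ℤ := fun ω => nmCell D.s x (D.raw π ds ω).P

/-- the bin `[β]_x` of the curvature of the display -/
def bc (ds : NmDs) (x : ℝ) : D.Row 1 → ℤ := fun ω => nmCell D.s x (D.raw π ds ω).be

/-- `log (1/s)` -/
def lgs : ℝ := lg D.s

end SfDoc

/-- a side variable (Def. names:side): `exact` (classical, contains `y_0`) or coarse (contains `𝒞(A,V)`); `lin` = linear branch (contains `L`); `xs` = the depth `x_*` -/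
structure NmSd where
  exact : Bool
  lin : Bool
  A : ℝ
  V : ℝ
  xs : ℝ

/-- the values of a side variable -/
abbrev NmZv (I : Type) : Type := (Option (I × SfRay) × NmNm) × (ℤ × ℤ × ℤ) × (ℤ × ℤ × ℤ)

/-- **the side variable `Z`** at the time root `a`.   It does NOT depend on `v` (linear branch: `L` is cut at `l = b_1(a)`). -/
def SfDoc.side (D : SfDoc) (π : SfPar) (q : NmQ) (σ : NmSd) (a : ℝ) : D.Row 1 → NmZv D.Idx := fun ω =>
  ((if σ.exact then some (D.y0 ω) else none, if σ.exact then nmZero else D.nm π q σ.A σ.V ω),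
   ((D.raw π q.ds ω).kb, if σ.exact && !σ.lin then D.Pc π q.ds σ.xs ω else 0, D.tc a ω),
   ((D.raw π q.ds ω).Rc D.s q a, (D.raw π q.ds ω).kc D.s q a,
    if σ.lin then nmCell D.s (π.b1 a) ((D.raw π q.ds ω).Lraw D.s q a) else 0))

/-! ## 5. Fine configurations, prediction along `Conn` -/

namespace SfDoc

variable (D : SfDoc) (π : SfPar)

/-- a documented configuration with tolerance, scale and mesh of the gates `≤ t` -/
structure Fine (C0 τ κ0 t : ℝ) : Prop where
  pos : 0 < t
  ok : D.Ok π C0 τ κ0 t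
  sm : D.s ≤ t
  mesh : ∀ a : ℝ, 0 ≤ a → a ≤ 1 → ∃ i ∈ D.G, |i - a| ≤ t

/-- the final row `ω` meets the label `lam` at the gate `j` (`j = 1`: its own sampled label; `Conn 1 1` is never used) -/
def Met (j : ℝ) (lam : SfTest) (ω : D.Row 1) : Prop :=
  if j = 1 then D.lab 1 ω = lam else ∃ ρ : D.Row j, D.lab j ρ = lam ∧ D.Conn j 1 ρ ω

/-- on the event `E`: the LABEL at the gate `j` together with the value of `A` lists `B` on every completing path -/
def LabPr (j : ℝ) {α β : Type} (E : D.Row 1 → Prop) (B : D.Row 1 → β) (A : D.Row 1 → α) (N : ℝ) : Prop :=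
  ∀ (lam : SfTest) (x : α), ∃ S : Finset β, (S.card : ℝ) ≤ N ∧ ∀ ω : D.Row 1, D.Met j lam ω → E ω → A ω = x → B ω ∈ S

/-- on the event `E`: every ROW of the gate `i` lists `B` on every completing path -/
def RowPr (i : ℝ) {β : Type} (E : D.Row 1 → Prop) (B : D.Row 1 → β) (N : ℝ) : Prop :=
  ∀ ρ : D.Row i, ∃ S : Finset β, (S.card : ℝ) ≤ N ∧ ∀ ω : D.Row 1, D.Conn i 1 ρ ω → E ω → B ω ∈ S

end SfDoc

/-! ## 6. Sequences and profiles -/

/-- a sequence of fine configurations of one affine family; `κ τ` = rigidity exponent of the cost improvement `τ` (ONE sequence for all `τ`; 4A never uses `mincost`) -/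
structure NmSeq (π : SfPar) (C0 : ℝ) (κ : ℝ → ℝ) where
  D : ℕ → SfDoc
  t : ℕ → ℝ
  fine : ∀ n τ, 0 < τ → (D n).Fine π C0 τ (κ τ) (t n)
  lim : Tendsto t uf (𝓝 0)

namespace NmSeq

variable {π : SfPar} {C0 : ℝ} {κ : ℝ → ℝ} (S : NmSeq π C0 κ)

/-- sequences of observations of the final laws -/
abbrev Obs (α : ℕ → Type) : Type := ∀ n, (S.D n).Row 1 → α n

/-- normalised entropy -/
def Hn {α : ℕ → Type} (X : S.Obs α) : ℝ := ulim fun n => ((S.D n).P 1).ent (X n) / (S.D n).lgs

/-- normalised conditional entropy -/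
def HC {α β : ℕ → Type} (X : S.Obs α) (Y : S.Obs β) : ℝ := ulim fun n => ((S.D n).P 1).entC (X n) (Y n) / (S.D n).lgs

/-- `X` given `Y` is homogeneous: the conditional score is deterministic -/
def Hom {α β : ℕ → Type} (X : S.Obs α) (Y : S.Obs β) : Prop :=
  ∀ e : ℝ, 0 < e → Tendsto (fun n => ((S.D n).P 1).pr
    (fun ω => e < |((S.D n).P 1).surC (X n) (Y n) ω / (S.D n).lgs - S.HC X Y|)) uf (𝓝 0)

/-- the names -/
def nm (q : NmQ) (a v : ℝ) : S.Obs (fun _ => NmNm) := fun n => (S.D n).nm π q a v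

/-- the angular cells -/
def Xc (x : ℝ) : S.Obs (fun _ => ℤ) := fun n => (S.D n).Xc x

/-- the time cells -/
def tc (z : ℝ) : S.Obs (fun _ => ℤ) := fun n => (S.D n).tc z

/-- the particles -/
def y0 : S.Obs (fun n => (S.D n).Idx × SfRay) := fun n => (S.D n).y0

/-- the labels met at the depth `j` -/
def lab (j : ℝ) : S.Obs (fun _ => SfTest) := fun n => (S.D n).labAt j

/-- pairs -/
def pr2 {α β : ℕ → Type} (X : S.Obs α) (Y : S.Obs β) : S.Obs (fun n => α n × β n) := fun n => pair (X n) (Y n)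

/-- `𝓗(a,v)` -/
def H (q : NmQ) (a v : ℝ) : ℝ := S.Hn (S.nm q a v)

/-- `𝖣_0 = lim log_{1/s} (e/κ)` -/
def D0 : ℝ := ulim fun n => Real.log (S.D n).ek / (S.D n).lgs

/-- **the excess `E(a,v)`** (canon) -/
def E (q : NmQ) (a v : ℝ) : ℝ := S.H q a v - S.D0 - q.Z π a v

/-- **the angular score `U(x; a, v)`** -/
def U (q : NmQ) (x a v : ℝ) : ℝ := S.HC (S.Xc x) (S.nm q a v)

/-- `R_j(v) = lim H_s (X^(v) | λ_j)` -/
def Rj (j v : ℝ) : ℝ := S.HC (S.Xc v) (S.lab j)

/-- the mixed profile of the derivative of the display `ds`, side `y_0` : `H(x,z) = lim H_s ([P]_x | y_0, t_z)` -/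
def HP (ds : NmDs) (x z : ℝ) : ℝ := S.HC (fun n => (S.D n).Pc π ds x) (S.pr2 S.y0 (S.tc z))

/-- `p_*(a)` : the supremum of the depths `≤ 1` at which the raw final derivative has zero score given `(y_0, t_a)`  (the cap `1` only avoids an unbounded set; all uses are near `b_1 ≤ 0`) -/
def pst (ds : NmDs) (a : ℝ) : ℝ := sSup {x : ℝ | x ≤ 1 ∧ S.HP ds x a = 0}

end NmSeq

/-! ## 7. The one-record tangent datum -/

/-- a root: query, side, `(a, v)`, gap `h`; cut-off depth `Rm` and bound `B` of the stored marks -/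
structure NmRt where
  q : NmQ
  σ : NmSd
  a : ℝ
  v : ℝ
  h : ℝ
  Rm : ℝ
  B : ℝ

/-- the rate `c'` of the branch: `b'` (quadratic), `b_1'` (linear) -/
def NmRt.c (r : NmRt) (π : SfPar) : ℝ := if r.σ.lin then π.q - π.J else r.q.ds.bs

/-- the stored mark of a final row at the root `r` -/
def SfDoc.smk (D : SfDoc) (π : SfPar) (r : NmRt) : D.Row 1 → ItMk := fun ω =>
  nmStore (D.s ^ r.h) r.Rm r.B ((D.raw π r.q.ds ω).mark D.s π r.q r.a (!r.σ.lin))

/-- the representative final row of a value of the side at the time root `a` (a charged row; it does NOT depend on `v`) -/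
def SfDoc.rpr (D : SfDoc) (π : SfPar) (q : NmQ) (σ : NmSd) (a : ℝ) (z : NmZv D.Idx) : Option (D.Row 1) :=
  if h : ∃ ω, (D.P 1).p ω ≠ 0 ∧ D.side π q σ a ω = z then some h.choose else none

/-- `C_*` : the root name of the representative of a value of the side -/
def SfDoc.cst (D : SfDoc) (π : SfPar) (r : NmRt) (z : NmZv D.Idx) : NmNm :=
  match D.rpr π r.q r.σ r.a z with
  | some ω => D.nm π r.q r.a r.v ω
  | none => nmZero

/-- the common phase: the normalised phase of the representative in the frame of its own root name -/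
def SfDoc.fst (D : SfDoc) (π : SfPar) (r : NmRt) (z : NmZv D.Idx) : ItPh :=
  match D.rpr π r.q r.σ r.a z with
  | some ω => (D.raw π r.q.ds ω).phase D.s π r.q r.a r.v (!r.σ.lin) (D.nm π r.q r.a r.v ω)
  | none => ⟨0, 0, 0, 0, 0, 0⟩

/-- `C_*` as an observation -/
def SfDoc.cs (D : SfDoc) (π : SfPar) (r : NmRt) : D.Row 1 → NmNm := fun ω => D.cst π r (D.side π r.q r.σ r.a ω)

/-- **the one-record tangent datum** at the root `r`.   `dsp` = decoding of a child name in the frame of a root name.   The child observation carries `C_*` of its own row (no change of entropy given `C_*`; the display is a function of it everywhere).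
ALL records `mrk i` are the SAME record: the replicas are built by R256/Lay (`LayGr.tan`, `nmGr` of `Nm/Grid.lean`). -/
def nmTan (D : SfDoc) (π : SfPar) (r : NmRt) (dsp : ℝ → NmNm → NmNm → ItDsp) : Tan where
  Ω := D.Row 1
  fin := D.fin 1
  P := D.P 1
  δ := D.s ^ r.h
  quad := !r.σ.lin
  ζ := NmZv D.Idx
  Zs := D.side π r.q r.σ r.a
  γ := NmNm
  Cs := D.cs π r
  F := fun ω => D.fst π r (D.side π r.q r.σ r.a ω)
  mrk := fun _ => D.smk π r
  ο := NmNm × NmNm
  O := fun l ω => (D.nm π r.q (r.a + l * r.h) r.v ω, D.cs π r ω)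
  dsp := fun l ω => dsp l (D.nm π r.q (r.a + l * r.h) r.v ω) (D.cs π r ω)
  ϖ := NmNm
  Wd := fun l => D.nm π r.q r.a (r.v + l * r.h)

theorem nm_defs_eqns_cite : True := by
  have := @nmLev.eq_1; have := @nmCell.eq_1; have := @nmRep.eq_1; have := @NmDs.b.eq_1; have := @nmDsEq.eq_1
  have := @nmDsLin.eq_1; have := @nmDsStr.eq_1; have := @NmQ.l.eq_1; have := @NmQ.w.eq_1; have := @NmQ.W.eq_1; have := @NmQ.Z.eq_1
  have := @nmZero.eq_1; have := @NmRaw.size.eq_1; have := @NmRaw.ta.eq_1; have := @NmRaw.Rraw.eq_1; have := @NmRaw.Rc.eq_1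
  have := @NmRaw.Ra.eq_1; have := @NmRaw.kraw.eq_1; have := @NmRaw.kc.eq_1; have := @NmRaw.ka.eq_1; have := @NmRaw.Lraw.eq_1
  have := @NmRaw.Lc.eq_1; have := @NmRaw.La.eq_1; have := @NmRaw.Nres.eq_1; have := @NmRaw.Dres.eq_1; have := @NmRaw.name.eq_1
  have := @NmRaw.mark.eq_1; have := @NmRaw.phase.eq_1; have := @nmPhDist.eq_1; have := @nmStore.eq_1; have := @SfDoc.smk.eq_1; have := @SfDoc.rpr.eq_1; have := @SfDoc.cst.eq_1; have := @SfDoc.fst.eq_1; have := @SfDoc.cs.eq_1; have := @SfDoc.gt.eq_1; have := @SfDoc.labAt.eq_1; have := @SfDoc.kbar.eq_1; have := @SfDoc.raw.eq_1; have := @SfDoc.nm.eq_1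
  have := @SfDoc.Xc.eq_1; have := @SfDoc.tc.eq_1; have := @SfDoc.y0.eq_1; have := @SfDoc.Pc.eq_1; have := @SfDoc.bc.eq_1; have := @SfDoc.lgs.eq_1
  have := @SfDoc.side.eq_1; have := @SfDoc.Met.eq_1; have := @SfDoc.LabPr.eq_1; have := @SfDoc.RowPr.eq_1
  have := @NmSeq.Hn.eq_1; have := @NmSeq.HC.eq_1; have := @NmSeq.Hom.eq_1; have := @NmSeq.nm.eq_1; have := @NmSeq.Xc.eq_1
  have := @NmSeq.tc.eq_1; have := @NmSeq.y0.eq_1; have := @NmSeq.lab.eq_1; have := @NmSeq.pr2.eq_1; have := @NmSeq.H.eq_1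
  have := @NmSeq.D0.eq_1; have := @NmSeq.E.eq_1; have := @NmSeq.U.eq_1; have := @NmSeq.Rj.eq_1; have := @NmSeq.HP.eq_1; have := @NmSeq.pst.eq_1
  have := @NmRt.c.eq_1; have := @nmTan.eq_1
  trivial

end

end Claimed.Agent.R256
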